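import Vale.Agent.P165.General.Overlap
import Vale.Agent.P165.Size

/-!
# The second moment bound: the clusters are infinite with positive probability
-/

namespace Vale.Agent.P165.General

open MeasureTheory ProbabilityTheory
open scoped Classical ENNReal

noncomputable section

variable {V : Type*} {G : SimpleGraph V}

theorem mem_cluster_of_open {ω : Sym2 V → Bool} {o : V} :
    ∀ {l : List V}, List.IsChain G.Adj l → (∀ e ∈ edgesOf l, ω e = true) → [o] <:+ l →
      ∀ v ∈ l, v ∈ cluster G ω o
  | [], _, _, _, v, hv => by simp at hv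
  | [a], _, _, hs, v, hv => by
    have : [o] = [a] := hs.eq_of_length rfl
    obtain rfl := List.mem_singleton.1 hv
    obtain rfl := (List.cons.inj this).1
    exact mem_cluster_self _ _ _
  | a :: b :: t, hc, he, hs, v, hv => by
    rw [List.isChain_cons_cons] at hc
    rw [edgesOf] at he
    have hs' : [o] <:+ b :: t :=
      List.suffix_of_suffix_length_le hs (List.suffix_cons a _) (by simp)
    have ih := mem_cluster_of_open hc.2 (fun e h => he e (List.mem_cons_of_mem _ h)) hs'
    rcases List.mem_cons.1 hv with rfl | hv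
    · refine (ih b (List.mem_cons_self ..)).trans (SimpleGraph.Adj.reachable ?_)
      exact ⟨hc.1.symm, he _ (List.mem_cons_self ..)⟩
    · exact ih v hv

namespace Setup

variable (S : Setup G) (o : V) {mu : ℝ}

/-- All edges of the path are open. -/
def openEv (Q : List V) : Set (Sym2 V → Bool) := {ω | ∀ e ∈ (edgesOf Q).toFinset, ω e = true}

/-- The constant of the second moment bound. -/
def momentK (mu : ℝ) : ℝ := 1 + 8 * S.excC mu * (1 + S.sigma)

theorem momentK_pos (hmu : 0 < mu) (hq : S.ratio mu < 1) : 0 < S.momentK mu := by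
  have := mul_nonneg (S.excC_nonneg hmu hq) (by linarith [S.sigma_nonneg] : (0 : ℝ) ≤ 1 + S.sigma)
  rw [momentK]
  linarith

variable [Countable V]

theorem measure_encard_ge (hmu : 0 < mu) (hmud : mu ≤ S.d) (hq : S.ratio mu < 1)
    {p : unitInterval} (hp : (p : ℝ) = mu / S.d) (j : ℕ) :
    ENNReal.ofReal (1 / S.momentK mu) ≤
      bondMeasure V p {ω | ((j * S.L + 1 : ℕ) : ℕ∞) ≤ (cluster G ω o).encard} := by
  set F := S.fam o j with hF
  set P' := bondMeasure V p
  set n := j * S.L
  set K := S.momentK mu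
  have hK : 0 < K := S.momentK_pos hmu hq
  have hd := S.d_pos'
  have hp0 : (0 : ℝ) < p := by rw [hp]; positivity
  set M : ℝ := (S.m : ℝ) ^ j with hM
  have hM0 : 0 < M := by
    refine pow_pos (Nat.cast_pos.2 (Nat.ceil_pos.2 ?_)) _
    positivity
  set U : Set (Sym2 V → Bool) := ⋃ Q ∈ F, openEv Q with hU
  have hEm : ∀ Q : List V, MeasurableSet (openEv Q) := fun Q => measurableSet_open _
  have hUm : MeasurableSet U := Finset.measurableSet_biUnion F fun Q _ => hEm Q
  have hUsub : U ⊆ {ω | ((n + 1 : ℕ) : ℕ∞) ≤ (cluster G ω o).encard} := by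
    intro ω hω
    simp only [hU, Set.mem_iUnion] at hω
    obtain ⟨Q, hQ, hopen⟩ := hω
    have hall := mem_cluster_of_open (S.isChain_ext o (S.fam_spec o hQ).1)
      (fun e he => hopen e (List.mem_toFinset.2 he)) (S.suffix_fam o hQ)
    have hnd := Tame.nodup S (S.tame_fam o hQ)
    calc ((n + 1 : ℕ) : ℕ∞) = (Q.toFinset : Set V).encard := by
          rw [Set.encard_coe_eq_coe_finsetCard, List.toFinset_card_of_nodup hnd, S.length_fam o hQ]
      _ ≤ _ := Set.encard_le_encard fun v hv => hall v (List.mem_toFinset.1 hv)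
  refine le_trans ?_ (measure_mono hUsub)
  refine ENNReal.ofReal_le_of_le_toReal ?_
  change 1 / K ≤ P'.real U
  let I : List V → (Sym2 V → Bool) → ℝ := fun Q => (openEv Q).indicator 1
  have hIint : ∀ Q, Integrable (I Q) P' := fun Q =>
    (integrable_const (1 : ℝ)).indicator (hEm Q)
  have hcard : ∀ Q ∈ F, (edgesOf Q).toFinset.card = n := fun Q hQ => by
    rw [List.toFinset_card_of_nodup (nodup_edgesOf (Tame.nodup S (S.tame_fam o hQ))),
      length_edgesOf, S.length_fam o hQ, Nat.add_sub_cancel]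
  have hprob : ∀ E : Finset (Sym2 V), P'.real {ω | ∀ e ∈ E, ω e = true} = (p : ℝ) ^ E.card := by
    intro E
    rw [Measure.real, bondMeasure_open, ENNReal.toReal_pow, ENNReal.toReal_ofReal p.2.1]
  have hI : ∀ Q ∈ F, ∫ ω, I Q ω ∂P' = (p : ℝ) ^ n := fun Q hQ => by
    rw [integral_indicator_one (hEm Q), ← hcard Q hQ]
    exact hprob _
  have hII : ∀ P Q : List V, (fun ω => I P ω * I Q ω) =
      ({ω : Sym2 V → Bool |
        ∀ e ∈ (edgesOf P).toFinset ∪ (edgesOf Q).toFinset, ω e = true}).indicator 1 := by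
    intro P Q
    have hset : openEv P ∩ openEv Q = {ω : Sym2 V → Bool |
        ∀ e ∈ (edgesOf P).toFinset ∪ (edgesOf Q).toFinset, ω e = true} := by
      ext ω
      simp [openEv, or_imp, forall_and]
    rw [← hset]
    funext ω
    by_cases h1 : ω ∈ openEv P <;> by_cases h2 : ω ∈ openEv Q <;>
      simp [I, Set.indicator, h1, h2]
  have hIIint : ∀ P Q, Integrable (fun ω => I P ω * I Q ω) P' := fun P Q => by
    rw [hII]
    exact (integrable_const (1 : ℝ)).indicator (measurableSet_open _)
  set Y : (Sym2 V → Bool) → ℝ := fun ω => ∑ Q ∈ F, I Q ω with hY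
  have hYint : Integrable Y P' := integrable_finsetSum _ fun Q _ => hIint Q
  have hY2eq : (fun ω => Y ω ^ 2) = fun ω => ∑ P ∈ F, ∑ Q ∈ F, I P ω * I Q ω := by
    funext ω
    simp only [hY, sq, Finset.sum_mul_sum]
  have hY2int : Integrable (fun ω => Y ω ^ 2) P' := by
    rw [hY2eq]
    exact integrable_finsetSum _ fun P _ => integrable_finsetSum _ fun Q _ => hIIint P Q
  have hEY : ∫ ω, Y ω ∂P' = M * (p : ℝ) ^ n := by
    rw [hY, integral_finsetSum _ fun Q _ => hIint Q, Finset.sum_congr rfl hI, Finset.sum_const,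
      nsmul_eq_mul, hM, hF, S.card_fam, Nat.cast_pow]
  have hEY2 : ∫ ω, Y ω ^ 2 ∂P' ≤ K * (M * (p : ℝ) ^ n) ^ 2 := by
    rw [hY2eq, integral_finsetSum _ fun P _ => integrable_finsetSum _ fun Q _ => hIIint P Q]
    calc ∑ P ∈ F, ∫ ω, ∑ Q ∈ F, I P ω * I Q ω ∂P'
        ≤ ∑ _P ∈ F, ((p : ℝ) ^ n) ^ 2 * (K * M) := by
          refine Finset.sum_le_sum fun P hP => ?_
          rw [integral_finsetSum _ fun Q _ => hIIint P Q]
          have h1 : ∀ Q ∈ F, ∫ ω, I P ω * I Q ω ∂P' =
              ((p : ℝ) ^ n) ^ 2 * ((S.d : ℝ) / mu) ^ shared (edgesOf P).toFinset Q := by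
            intro Q hQ
            rw [hII, integral_indicator_one (measurableSet_open _), hprob]
            have h := card_union_edgesOf (Tame.nodup S (S.tame_fam o hQ)) (edgesOf P).toFinset
            rw [hcard P hP, S.length_fam o hQ, Nat.add_sub_cancel] at h
            rw [show (S.d : ℝ) / mu = (p : ℝ)⁻¹ by rw [hp, inv_div], inv_pow,
              ← div_eq_mul_inv, eq_div_iff (pow_ne_zero _ hp0.ne'), ← pow_add, h, ← pow_mul]
            congr 1
            omega
          rw [Finset.sum_congr rfl h1, ← Finset.mul_sum]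
          exact mul_le_mul_of_nonneg_left (S.sum_pow_shared_le o hmu hmud hq hP) (by positivity)
      _ = _ := by
          rw [Finset.sum_const, nsmul_eq_mul, hF, S.card_fam, Nat.cast_pow, ← hM]
          ring
  set t : ℝ := K * (M * (p : ℝ) ^ n) with ht
  have hpt : ∀ ω, 2 * t * Y ω ≤ t ^ 2 * U.indicator 1 ω + Y ω ^ 2 := by
    intro ω
    by_cases h : ω ∈ U
    · rw [Set.indicator_of_mem h, Pi.one_apply]
      nlinarith [sq_nonneg (t - Y ω)]
    · rw [Set.indicator_of_notMem h, mul_zero, zero_add]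
      have : Y ω = 0 := Finset.sum_eq_zero fun Q hQ => by
        refine Set.indicator_of_notMem (fun hQω => h ?_) _
        exact Set.mem_iUnion₂.2 ⟨Q, hQ, hQω⟩
      rw [this]
      simp
  have hUint : Integrable (fun ω => t ^ 2 * U.indicator (1 : (Sym2 V → Bool) → ℝ) ω) P' :=
    ((integrable_const (1 : ℝ)).indicator hUm).const_mul _
  have h := integral_mono (hYint.const_mul (2 * t)) (hUint.add hY2int) hpt
  simp only [Pi.add_apply] at h
  rw [integral_const_mul, hEY, integral_add hUint hY2int, integral_const_mul,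
    integral_indicator_one hUm] at h
  rw [div_le_iff₀ hK]
  have hA : 0 < M * (p : ℝ) ^ n := by positivity
  have h5 : K * (M * (p : ℝ) ^ n) ^ 2 * 1 ≤ K * (M * (p : ℝ) ^ n) ^ 2 * (P'.real U * K) := by
    rw [ht] at h
    linarith
  exact le_of_mul_le_mul_left h5 (by positivity)

/-- The cluster of `o` is infinite with positive probability. -/
theorem measure_infinite_pos (hmu : 0 < mu) (hmud : mu ≤ S.d) (hq : S.ratio mu < 1)
    {p : unitInterval} (hp : (p : ℝ) = mu / S.d) :
    0 < bondMeasure V p {ω | (cluster G ω o).Infinite} := by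
  have tail : ∀ K : ℕ, ENNReal.ofReal (1 / S.momentK mu) ≤
      bondMeasure V p {ω | (K : ℕ∞) ≤ (cluster G ω o).encard} := by
    intro K
    refine (S.measure_encard_ge o hmu hmud hq hp K).trans (measure_mono fun ω hω => ?_)
    simp only [Set.mem_ofPred_eq] at hω ⊢
    refine le_trans (Nat.cast_le.2 ?_) hω
    exact le_trans (Nat.le_mul_of_pos_right K S.L_pos) (Nat.le_succ _)
  have heq : {ω : Sym2 V → Bool | (cluster G ω o).Infinite}
      = ⋂ K : ℕ, {ω | (K : ℕ∞) ≤ (cluster G ω o).encard} := by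
    ext ω
    simp only [Set.mem_ofPred_eq, Set.mem_iInter]
    refine ⟨fun h K => by simp [h.encard_eq], fun h hfin => ?_⟩
    have h1 := h (hfin.toFinset.card + 1)
    rw [hfin.encard_eq_coe_toFinset_card, Nat.cast_le] at h1
    omega
  have hanti : Antitone fun K : ℕ =>
      {ω : Sym2 V → Bool | (K : ℕ∞) ≤ (cluster G ω o).encard} := fun a b hab ω hω =>
    le_trans (show (a : ℕ∞) ≤ b by exact_mod_cast hab) hω
  rw [heq, hanti.measure_iInter
    (fun K => (measurableSet_le_encard G o K).nullMeasurableSet) ⟨0, measure_ne_top _ _⟩]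
  exact lt_of_lt_of_le (ENNReal.ofReal_pos.2 (one_div_pos.2 (S.momentK_pos hmu hq))) (le_iInf tail)

end Setup

end

end Vale.Agent.P165.General
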