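import Vale.Agent.P165.General.Walks
import Vale.Agent.P165.General.Moment

/-!
# The two thresholds are separated at large degree, without transitivity
-/

namespace Vale.Agent.P165.General

open MeasureTheory

open scoped Classical

/-- Degrees comparable to `d`, adjacency norm at most `r * d`, `d` large: `p_c < p_u`. -/
theorem separation (r : ℝ) (hr : r < 1) (C : ℝ) (ε : ℝ) (hε : 0 < ε) :
    ∃ D : ℕ, ∀ (V : Type*) (G : SimpleGraph V) [G.LocallyFinite] (d : ℕ),
      Infinite V → G.Connected → D ≤ d → (∀ x, d ≤ G.degree x) →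
      (∀ x, (G.degree x : ℝ) ≤ C * d) → AdjacencyNormLE G (r * d) →
        pCritical G ≤ (1 + ε) / d ∧ pCritical G < pUniqueness G := by
  -- parameters
  set r' : ℝ := max r (1 / 2) with hr'
  have hr0 : 0 < r' := lt_of_lt_of_le (by norm_num) (le_max_right _ _)
  have hr1 : r' < 1 := max_lt hr (by norm_num)
  set C' : ℝ := max C 1 with hC'
  set lam : ℝ := (1 + 1 / r') / 2 with hlam
  have hinv : 1 < 1 / r' := (one_lt_div hr0).2 hr1
  have hlam1 : 1 < lam := by rw [hlam]; linarith
  have hlr : lam * r' < 1 := by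
    rw [hlam, div_mul_eq_mul_div, add_mul, one_mul, div_mul_cancel₀ _ hr0.ne']
    linarith
  set mu : ℝ := min (1 + ε) lam with hmu
  have hmu1 : 1 < mu := lt_min (by linarith) hlam1
  have hmul : mu ≤ lam := min_le_right _ _
  set beta : ℝ := (1 + lam) / 2 with hbeta
  have hb1 : 1 < beta := by rw [hbeta]; linarith
  have hbl : beta < lam := by rw [hbeta]; linarith
  have hθ0 : 0 ≤ beta / lam := div_nonneg (by linarith) (by linarith)
  have hθ1 : beta / lam < 1 := (div_lt_one (by linarith)).2 hbl
  set kappa : ℝ := (1 + mu) / 2 with hkappa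
  have hk1 : 1 < kappa := by rw [hkappa]; linarith
  have hkm : kappa < mu := by rw [hkappa]; linarith
  set s0 : ℝ := (mu / kappa - 1) / 4 with hs0
  have hs0pos : 0 < s0 := by
    have : 1 < mu / kappa := (one_lt_div (by linarith)).2 hkm
    rw [hs0]; linarith
  set B : ℝ := beta / (beta - 1) with hB
  have hB0 : 0 ≤ B := div_nonneg (by linarith) (by linarith)
  set tau : ℝ := min (1 / 2) (s0 / (2 * (1 + B))) with htau
  have htau0 : 0 < tau := lt_min (by norm_num) (by positivity)
  obtain ⟨L₁, hL₁⟩ := exists_pow_lt_of_lt_one (show (0 : ℝ) < 1 / 4 by norm_num) hθ1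
  obtain ⟨L₂, hL₂⟩ := pow_unbounded_of_one_lt (4 : ℝ) hk1
  set L : ℕ := L₁ + L₂ + 1 with hL
  have hLθ : (beta / lam) ^ L ≤ 1 / 4 :=
    (pow_le_pow_of_le_one hθ0 hθ1.le (by omega)).trans hL₁.le
  have hLk : 4 ≤ kappa ^ L := hL₂.le.trans (pow_le_pow_right₀ hk1.le (by omega))
  have hLpos : (0 : ℝ) < L := Nat.cast_pos.2 (by omega)
  set eta : ℝ := tau / (8 * L) with heta
  have heta0 : 0 < eta := by positivity
  have h1θ : 0 < 1 - beta / lam := by linarith
  set delta : ℝ := min (s0 / 2) (eta / 4 * (1 - beta / lam)) with hdelta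
  have hdelta0 : 0 < delta := lt_min (by positivity) (by positivity)
  obtain ⟨D₀, hD₀, hker⟩ := exists_degree_kern_le (lam := lam) (r := r') (C := C') (δ := delta)
    (by linarith) hr0 hlr (le_max_right _ _) hdelta0
  refine ⟨max D₀ (⌈lam⌉₊ + 2), ?_⟩
  intro V G _ d _ hconn hDd hlow hup hnorm
  have : Countable V := countable_of_connected G hconn
  have hd0' : 0 < d := by omega
  have hd0 : (0 : ℝ) < d := Nat.cast_pos.2 hd0'
  have hlamd : lam < (d : ℝ) := by
    have h1 : ((⌈lam⌉₊ + 2 : ℕ) : ℝ) ≤ d := by exact_mod_cast (le_max_right _ _).trans hDd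
    have h2 := Nat.le_ceil lam
    push_cast at h1
    linarith
  have hnorm' : AdjacencyNormLE G (r' * d) :=
    hnorm.mono (mul_le_mul_of_nonneg_right (le_max_left _ _) hd0.le)
  have hrd : 0 < r' * d := mul_pos hr0 hd0
  have ht : 0 ≤ lam / d := div_nonneg (by linarith) hd0.le
  have htc : lam / d * (r' * d) < 1 := by
    rwa [show lam / d * (r' * d) = lam * r' by field_simp]
  have hdeg : ∀ x, (G.degree x : ℝ) ≤ C' * d := fun x =>
    (hup x).trans (mul_le_mul_of_nonneg_right (le_max_left _ _) hd0.le)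
  have hsel : ∀ x, ∃ T ⊆ G.neighborFinset x, T.card = d := fun x =>
    Finset.exists_subset_card_eq (by rw [SimpleGraph.card_neighborFinset_eq_degree]; exact hlow x)
  choose Nd hNd hNdc using hsel
  let S : Setup G :=
    { d := d
      lam := lam
      delta := delta
      H := kern G (lam / d)
      Nd := Nd
      beta := beta
      tau := tau
      eta := eta
      kappa := kappa
      L := L
      d_pos := hd0'
      delta_nonneg := hdelta0.le
      adj := fun x z hz => (G.mem_neighborFinset x z).1 (hNd x hz)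
      card_Nd := hNdc
      nonneg := kern_nonneg ht
      symm := kern_comm _
      one_le_self := one_le_kern_self hrd hnorm' ht htc
      le_delta := hker G d ((le_max_left _ _).trans hDd) hdeg hnorm'
      step := fun x v => by
        refine (Finset.sum_le_sum_of_subset_of_nonneg (hNd x)
          fun z _ _ => kern_nonneg ht z v).trans (le_of_eq ?_)
        rw [kern_eq hrd hnorm' ht htc x v, add_sub_cancel_left, ← mul_assoc,
          show (d : ℝ) / lam * (lam / d) = 1 by field_simp, one_mul]
      one_lt_beta := hb1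
      beta_lt_lam := hbl
      tau_pos := htau0
      tau_lt_one := lt_of_le_of_lt (min_le_left _ _) (by norm_num)
      L_pos := by omega
      eta_eq := by rw [heta]; field_simp
      delta_le := (div_le_iff₀ h1θ).2 (min_le_right _ _)
      pow_le := hLθ
      one_le_kappa := hk1.le
      kappa_le_lam := hkm.le.trans hmul
      four_le_pow := hLk }
  have hsigma : S.sigma ≤ s0 := by
    have h1 : tau * (1 + B) ≤ s0 / 2 := by
      calc tau * (1 + B) ≤ s0 / (2 * (1 + B)) * (1 + B) :=
            mul_le_mul_of_nonneg_right (min_le_right _ _) (by linarith)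
        _ = s0 / 2 := by field_simp
    have h2 : delta ≤ s0 / 2 := min_le_left _ _
    show delta + tau * (1 + B) ≤ s0
    linarith
  have hq : S.ratio mu < 1 := by
    show kappa / mu * (1 + 2 * S.sigma) < 1
    rw [div_mul_eq_mul_div, div_lt_one (by linarith)]
    calc kappa * (1 + 2 * S.sigma) ≤ kappa * (1 + 2 * s0) := by gcongr
      _ = (kappa + mu) / 2 := by rw [hs0]; field_simp; ring
      _ < mu := by linarith
  have hmud : mu < (d : ℝ) := lt_of_le_of_lt hmul hlamd
  have hpmem : mu / d ∈ Set.Icc (0 : ℝ) 1 :=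
    ⟨div_nonneg (by linarith) hd0.le, (div_le_one hd0).2 hmud.le⟩
  set p : unitInterval := ⟨mu / d, hpmem⟩ with hp
  obtain ⟨o⟩ := hconn.nonempty
  have hpos : 0 < bondMeasure V p {ω | (cluster G ω o).Infinite} :=
    S.measure_infinite_pos o (mu := mu) (by linarith) hmud.le hq (p := p) rfl
  have hmem : 0 < bondMeasure V p (hasInfiniteCluster G) :=
    lt_of_lt_of_le hpos (measure_mono fun ω hω => ⟨o, hω⟩)
  have hpc : pCritical G ≤ mu / d :=
    csInf_le ⟨0, by rintro _ ⟨q, -, rfl⟩; exact q.2.1⟩ ⟨p, hmem, rfl⟩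
  refine ⟨hpc.trans (div_le_div_of_nonneg_right (min_le_left _ _) hd0.le), ?_⟩
  have hpu : min 1 (1 / (r' * d)) ≤ pUniqueness G := by
    refine le_csInf ⟨1, ⟨1, unique_one hconn, rfl⟩⟩ ?_
    rintro _ ⟨q, hq', rfl⟩
    by_contra hcon
    push Not at hcon
    have h1 : (q : ℝ) * (r' * d) < 1 := by
      have := hcon.trans_le (min_le_right _ _)
      rwa [lt_div_iff₀ hrd] at this
    exact not_unique hrd hnorm' h1 hq'
  refine lt_of_lt_of_le (lt_of_le_of_lt hpc (lt_min ?_ ?_)) hpu
  · rwa [div_lt_one hd0]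
  · rw [div_lt_div_iff₀ hd0 hrd]
    calc mu * (r' * d) ≤ lam * (r' * d) := mul_le_mul_of_nonneg_right hmul hrd.le
      _ = (lam * r') * d := by ring
      _ < 1 * d := mul_lt_mul_of_pos_right hlr hd0

end Vale.Agent.P165.General
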