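import Vale.Agent.P165.General.Paths

/-!
# Two paths of the family share few edges

For a fixed path `P` of the family, `s ^ (number of shared edges)` averaged over the family is
bounded independently of the length, where `s = d / μ`, as long as `μ` exceeds `κ (1 + 2σ)`.
-/

namespace Vale.Agent.P165.General

open scoped Classical
noncomputable section

variable {V : Type*}

/-- The edges of a list. -/
def edgesOf : List V → List (Sym2 V)
  | a :: b :: l => s(b, a) :: edgesOf (b :: l)
  | _ => []

theorem mem_of_mem_edgesOf : ∀ {l : List V} {e : Sym2 V}, e ∈ edgesOf l → ∀ v ∈ e, v ∈ l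
  | [], _, h, _, _ => by simp [edgesOf] at h
  | [_], _, h, _, _ => by simp [edgesOf] at h
  | a :: b :: l, e, h, v, hv => by
    rw [edgesOf, List.mem_cons] at h
    rcases h with rfl | h
    · rcases Sym2.mem_iff.1 hv with rfl | rfl <;> simp
    · exact List.mem_cons_of_mem _ (mem_of_mem_edgesOf h v hv)

theorem length_edgesOf : ∀ l : List V, (edgesOf l).length = l.length - 1
  | [] => rfl
  | [_] => rfl
  | _ :: b :: l => by
    rw [edgesOf, List.length_cons, length_edgesOf (b :: l)]
    simp

theorem nodup_edgesOf : ∀ {l : List V}, l.Nodup → (edgesOf l).Nodup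
  | [], _ => by simp [edgesOf]
  | [_], _ => by simp [edgesOf]
  | a :: b :: l, h => by
    rw [edgesOf, List.nodup_cons]
    obtain ⟨h1, h2⟩ := List.nodup_cons.1 h
    exact ⟨fun he => h1 (mem_of_mem_edgesOf he a (Sym2.mem_mk_right b a)), nodup_edgesOf h2⟩

theorem edgesOf_suffix : ∀ {l Q : List V}, l <:+ Q → edgesOf l <:+ edgesOf Q
  | l, [], h => by
    rw [List.suffix_nil] at h
    subst h
    exact List.suffix_refl _
  | l, [a], h => by
    rcases List.suffix_cons_iff.1 h with rfl | h
    · exact List.suffix_refl _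
    · rw [List.suffix_nil] at h
      subst h
      exact List.suffix_refl _
  | l, a :: b :: t, h => by
    rcases List.suffix_cons_iff.1 h with rfl | h
    · exact List.suffix_refl _
    · rw [show edgesOf (a :: b :: t) = s(b, a) :: edgesOf (b :: t) from rfl]
      exact (edgesOf_suffix h).trans (List.suffix_cons _ _)

/-- The number of edges of a list lying in `E`. -/
def shared (E : Finset (Sym2 V)) : List V → ℕ
  | a :: b :: l => (if s(b, a) ∈ E then 1 else 0) + shared E (b :: l)
  | _ => 0

/-- Whether the newest edge of a list lies in `E`. -/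
def lastShared (E : Finset (Sym2 V)) : List V → ℕ
  | a :: b :: _ => if s(b, a) ∈ E then 1 else 0
  | _ => 0

theorem shared_eq (E : Finset (Sym2 V)) : ∀ l : List V,
    shared E l = ((edgesOf l).filter fun e => decide (e ∈ E)).length
  | [] => rfl
  | [_] => rfl
  | a :: b :: l => by
    rw [shared, edgesOf, List.filter_cons, shared_eq E (b :: l)]
    split_ifs <;> simp_all <;> omega

theorem card_union_edgesOf {Q : List V} (hQ : Q.Nodup) (E : Finset (Sym2 V)) :
    (E ∪ (edgesOf Q).toFinset).card + shared E Q = E.card + (Q.length - 1) := by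
  have h2 : shared E Q = (E ∩ (edgesOf Q).toFinset).card := by
    rw [shared_eq, ← List.toFinset_card_of_nodup ((nodup_edgesOf hQ).filter _)]
    congr 1
    ext e
    simp [and_comm]
  rw [h2, Finset.card_union_add_card_inter, List.toFinset_card_of_nodup (nodup_edgesOf hQ),
    length_edgesOf]

/-- The number of edges of `P` at `x`. -/
def inc (P : List V) (x : V) : ℕ := ((edgesOf P).toFinset.filter fun e => x ∈ e).card

namespace Setup

variable {G : SimpleGraph V} (S : Setup G)

/-- All the weighted values along a list are small. -/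
def Tame (Q : List V) : Prop := ∀ i, S.hval (Q.drop i) ≤ S.tau

theorem Tame.tail {a : V} {l : List V} (h : S.Tame (a :: l)) : S.Tame l := fun i => by
  simpa using h (i + 1)

theorem Tame.suffix {l Q : List V} (h : S.Tame Q) (hs : l <:+ Q) : S.Tame l := fun i => by
  rw [List.suffix_iff_eq_drop.1 hs, List.drop_drop]
  exact h _

theorem Tame.nodup : ∀ {l : List V}, S.Tame l → l.Nodup
  | [], _ => List.nodup_nil
  | a :: l, h => by
    refine List.nodup_cons.2 ⟨fun ha => ?_, Tame.nodup (Tame.tail S h)⟩
    have h1 : S.pot l a ≤ S.tau := by simpa [hval] using h 0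
    linarith [S.le_pot_of_mem ha a, S.one_le_self a, S.tau_lt_one]

/-- The off-diagonal bound, `1 + sigma` bounds a row of the kernel along a tame list. -/
def sigma : ℝ := S.delta + S.tau * (1 + S.beta / (S.beta - 1))

theorem sigma_nonneg : 0 ≤ S.sigma := by
  have : 0 ≤ S.beta / (S.beta - 1) := div_nonneg S.beta_nonneg (by linarith [S.one_lt_beta])
  exact add_nonneg S.delta_nonneg (mul_nonneg S.tau_pos.le (by linarith))

theorem exists_row_bound : ∀ {P : List V}, S.Tame P → ∀ x ∈ P, ∃ g : ℝ, 1 ≤ g ∧
    (∀ z, g * S.H z x ≤ S.pot P z) ∧ (P.map (S.H x)).sum ≤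
      1 + S.delta + S.tau + S.tau * (S.beta / (S.beta - 1)) * (1 - 1 / g)
  | y :: l, h, x, hx => by
    have h1 : S.pot l y ≤ S.tau := by simpa [hval] using h 0
    rcases List.mem_cons.1 hx with rfl | hx
    · refine ⟨1, le_rfl, fun z => ?_, ?_⟩
      · rw [one_mul, pot]
        linarith [mul_nonneg S.beta_nonneg (S.pot_nonneg l z)]
      · rw [List.map_cons, List.sum_cons]
        have := S.le_delta x x
        have := S.sum_map_le_pot l x
        simp at *
        linarith
    · obtain ⟨g, hg1, hg2, hg3⟩ := exists_row_bound (Tame.tail S h) x hx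
      have hg0 : 0 < g := by linarith
      have hb : 0 < S.beta := by linarith [S.one_lt_beta]
      refine ⟨S.beta * g, one_le_mul_of_one_le_of_one_le S.one_lt_beta.le hg1, fun z => ?_, ?_⟩
      · rw [pot, mul_assoc]
        linarith [mul_le_mul_of_nonneg_left (hg2 z) hb.le, S.nonneg z y]
      · rw [List.map_cons, List.sum_cons, S.symm x y]
        have hy : S.H y x ≤ S.tau / g := by
          rw [le_div_iff₀ hg0, mul_comm]
          exact (hg2 y).trans h1
        have hb1 : S.beta - 1 ≠ 0 := by
          have := S.one_lt_beta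
          intro h0; linarith
        have key : S.tau / g + S.tau * (S.beta / (S.beta - 1)) * (1 - 1 / g) =
            S.tau * (S.beta / (S.beta - 1)) * (1 - 1 / (S.beta * g)) := by
          field_simp
          ring
        linarith

theorem sum_row_le {P : List V} (h : S.Tame P) {x : V} (hx : x ∈ P) :
    (P.map (S.H x)).sum ≤ 1 + S.sigma := by
  obtain ⟨g, hg1, -, hg3⟩ := S.exists_row_bound h x hx
  have h0 : 0 ≤ S.tau * (S.beta / (S.beta - 1)) :=
    mul_nonneg S.tau_pos.le (div_nonneg S.beta_nonneg (by linarith [S.one_lt_beta]))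
  have : 0 ≤ 1 / g := by positivity
  rw [sigma]
  nlinarith

/-- The kernel summed over the end points of an edge. -/
def edgeH (x : V) : Sym2 V → ℝ :=
  Sym2.lift ⟨fun a b => S.H x a + S.H x b, fun _ _ => add_comm _ _⟩

@[simp] theorem edgeH_mk (x a b : V) : S.edgeH x s(a, b) = S.H x a + S.H x b := rfl

theorem edgeH_nonneg (x : V) (e : Sym2 V) : 0 ≤ S.edgeH x e := by
  induction e using Sym2.ind with
  | _ a b => exact add_nonneg (S.nonneg _ _) (S.nonneg _ _)

theorem sum_edgeH_le : ∀ (x : V) (P : List V),
    ((edgesOf P).map (S.edgeH x)).sum + (P.head?.map (S.H x)).getD 0 ≤ 2 * (P.map (S.H x)).sum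
  | x, [] => by simp [edgesOf]
  | x, [a] => by
    simp [edgesOf]
    linarith [S.nonneg x a]
  | x, a :: b :: l => by
    have := sum_edgeH_le x (b :: l)
    simp [edgesOf] at *
    linarith

/-- The kernel summed over the end points of the edges of a path. -/
def Xi (P : List V) (x : V) : ℝ := ∑ e ∈ (edgesOf P).toFinset, S.edgeH x e

theorem Xi_le {P : List V} (hP : S.Tame P) {x : V} (hx : x ∈ P) :
    S.Xi P x ≤ 2 * (1 + S.sigma) := by
  rw [Xi, List.sum_toFinset _ (nodup_edgesOf (Tame.nodup S hP))]
  have h1 := S.sum_edgeH_le x P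
  have h2 : 0 ≤ (P.head?.map (S.H x)).getD 0 := by
    cases P <;> simp [S.nonneg]
  linarith [S.sum_row_le hP hx]

theorem inc_le_Xi (P : List V) (x : V) : (inc P x : ℝ) ≤ S.Xi P x := by
  rw [inc, Xi, Finset.card_eq_sum_ones, Finset.sum_filter]
  push_cast
  refine Finset.sum_le_sum fun e _ => ?_
  induction e using Sym2.ind with
  | _ a b =>
    split_ifs with h
    · rcases Sym2.mem_iff.1 h with rfl | rfl
      · rw [edgeH_mk]; linarith [S.one_le_self x, S.nonneg x b]
      · rw [edgeH_mk]; linarith [S.one_le_self x, S.nonneg x a]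
    · exact S.edgeH_nonneg _ _

theorem sum_Xi_le (P : List V) (x : V) :
    ∑ z ∈ S.Nd x, S.Xi P z ≤ (S.d : ℝ) / S.lam * (S.Xi P x - inc P x) := by
  simp only [Xi, inc]
  rw [Finset.sum_comm, Finset.card_eq_sum_ones, Finset.sum_filter]
  push_cast
  rw [← Finset.sum_sub_distrib, Finset.mul_sum]
  refine Finset.sum_le_sum fun e _ => ?_
  induction e using Sym2.ind with
  | _ a b =>
    simp only [edgeH_mk, Finset.sum_add_distrib]
    refine (add_le_add (S.step x a) (S.step x b)).trans ?_
    rw [← mul_add]
    refine mul_le_mul_of_nonneg_left ?_ (div_nonneg (Nat.cast_nonneg _) S.lam_pos.le)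
    by_cases h1 : x = a <;> by_cases h2 : x = b <;> simp [h1, h2] <;> split_ifs <;> linarith

theorem card_shared_step_le (P : List V) (x : V) (l : List V) :
    ((S.Nd x).filter fun z => s(x, z) ∈ (edgesOf P).toFinset ∧ z ∉ x :: l).card +
      lastShared (edgesOf P).toFinset (x :: l) ≤ inc P x := by
  set E := (edgesOf P).toFinset
  set Z := (S.Nd x).filter fun z => s(x, z) ∈ E ∧ z ∉ x :: l
  have hinj : Set.InjOn (fun z => s(x, z)) (Z : Set V) := fun a _ b _ h =>
    Sym2.congr_right.1 h
  have hsub : Z.image (fun z => s(x, z)) ⊆ E.filter fun e => x ∈ e := by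
    intro e he
    obtain ⟨z, hz, rfl⟩ := Finset.mem_image.1 he
    exact Finset.mem_filter.2 ⟨(Finset.mem_filter.1 hz).2.1, Sym2.mem_mk_left x z⟩
  rcases l with _ | ⟨y, t⟩
  · rw [show lastShared E [x] = 0 from rfl, add_zero, ← Finset.card_image_of_injOn hinj]
    exact Finset.card_le_card hsub
  · rw [lastShared]
    split_ifs with hy
    · have hnot : s(y, x) ∉ Z.image fun z => s(x, z) := by
        intro he
        obtain ⟨z, hz, hze⟩ := Finset.mem_image.1 he
        rw [Sym2.eq_swap (a := y)] at hze
        have hzy : z = y := Sym2.congr_right.1 hze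
        exact (Finset.mem_filter.1 hz).2.2 (by simp [hzy])
      rw [← Finset.card_image_of_injOn hinj, ← Finset.card_insert_of_notMem hnot]
      refine Finset.card_le_card (Finset.insert_subset ?_ hsub)
      exact Finset.mem_filter.2 ⟨hy, Sym2.mem_mk_right y x⟩
    · rw [add_zero, ← Finset.card_image_of_injOn hinj]
      exact Finset.card_le_card hsub

variable (o : V)

theorem tame_fam {j : ℕ} {Q : List V} (h : Q ∈ S.fam o j) : S.Tame Q := (S.fam_spec o h).2.2

/-- The excess `∑ (s ^ k - 1)` over the paths through `l`, `k` counting shared edges after `l`. -/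
def exc (j : ℕ) (E : Finset (Sym2 V)) (s : ℝ) (l : List V) : ℝ :=
  ∑ Q ∈ S.through o j l, (s ^ shared E Q / s ^ shared E l - 1)

theorem sum_through_succ {j : ℕ} {x : V} {l : List V} (hlen : (x :: l).length ≤ j * S.L)
    (f : List V → ℝ) :
    ∑ Q ∈ S.through o j (x :: l), f Q =
      ∑ z ∈ (S.Nd x).filter (fun z => z ∉ x :: l), ∑ Q ∈ S.through o j (z :: x :: l), f Q := by
  rw [← Finset.sum_biUnion]
  · refine Finset.sum_congr ?_ fun _ _ => rfl
    ext Q
    simp only [through, Finset.mem_filter, Finset.mem_biUnion]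
    constructor
    · rintro ⟨hQ, hs⟩
      have h1 := S.mem_ext_drop (S.fam_spec o hQ).1 (j * S.L - l.length) (Nat.sub_le _ _)
      have h2 : Q.drop (j * S.L - l.length) = x :: l := by
        conv_rhs => rw [List.suffix_iff_eq_drop.1 hs]
        rw [S.length_fam o hQ]
        congr 1
        simp
      rw [h2] at h1
      obtain ⟨k, hk⟩ : ∃ k, j * S.L - l.length = k + 1 := by
        refine ⟨j * S.L - l.length - 1, ?_⟩
        simp only [List.length_cons] at hlen
        omega
      rw [hk] at h1
      obtain ⟨z, hz, hzs⟩ := S.exists_cons_suffix h1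
      refine ⟨z, ⟨hz, ?_⟩, hQ, hzs⟩
      exact (List.nodup_cons.1 (Tame.nodup S (Tame.suffix S (S.tame_fam o hQ) hzs))).1
    · rintro ⟨z, -, hQ, hs⟩
      exact ⟨hQ, (List.suffix_cons _ _).trans hs⟩
  · intro a _ b _ hab
    simp only [Function.onFun, Finset.disjoint_left, through, Finset.mem_filter]
    rintro Q ⟨-, ha⟩ ⟨-, hb⟩
    have := (List.suffix_of_suffix_length_le ha hb (by simp)).eq_of_length (by simp)
    exact hab (List.cons.inj this).1

variable {mu : ℝ}

/-- The ratio governing a stretch of shared edges. -/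
def ratio (mu : ℝ) : ℝ := S.kappa / mu * (1 + 2 * S.sigma)

/-- The constant in the excess bound. -/
def excC (mu : ℝ) : ℝ := S.kappa / mu / (1 - S.ratio mu)

theorem excC_nonneg (hmu : 0 < mu) (hq : S.ratio mu < 1) : 0 ≤ S.excC mu :=
  div_nonneg (div_nonneg (by linarith [S.one_le_kappa]) hmu.le) (by linarith)

theorem exc_le (hmu : 0 < mu) (hmud : mu ≤ S.d) (hq : S.ratio mu < 1) {j : ℕ} {P : List V}
    (hP : S.Tame P) : ∀ (k : ℕ) (x : V) (l : List V), l.length + k = j * S.L →
      S.exc o j (edgesOf P).toFinset (S.d / mu) (x :: l) ≤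
        4 * (S.m : ℝ) ^ j * (S.kappa / S.d) ^ l.length * S.excC mu *
          (S.Xi P x - lastShared (edgesOf P).toFinset (x :: l)) := by
  set E := (edgesOf P).toFinset with hE
  set s : ℝ := S.d / mu with hs
  set c := S.excC mu with hc
  have hs1 : 1 ≤ s := (one_le_div hmu).2 hmud
  have hs0 : 0 < s := lt_of_lt_of_le one_pos hs1
  have hc0 : 0 ≤ c := S.excC_nonneg hmu hq
  have hkd : 0 ≤ S.kappa / S.d := div_nonneg (by linarith [S.one_le_kappa]) S.d_pos'.le
  have hbase : ∀ n : ℕ, 0 ≤ 4 * (S.m : ℝ) ^ j * (S.kappa / S.d) ^ n := fun _ => by positivity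
  have hnn : ∀ (x : V) (l : List V), 0 ≤ S.Xi P x - lastShared E (x :: l) := by
    intro x l
    have h1 := S.card_shared_step_le P x l
    have h2 : (lastShared E (x :: l) : ℝ) ≤ inc P x := by
      exact_mod_cast (Nat.le_add_left _ _).trans h1
    linarith [S.inc_le_Xi P x]
  intro k
  induction k with
  | zero =>
    intro x l hl
    rw [exc, Finset.sum_eq_zero]
    · have := hnn x l
      positivity
    · intro Q hQ
      obtain ⟨hQ1, hQ2⟩ := Finset.mem_filter.1 hQ
      have : x :: l = Q := hQ2.eq_of_length (by rw [S.length_fam o hQ1, List.length_cons]; omega)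
      rw [this, div_self (pow_ne_zero _ hs0.ne'), sub_self]
  | succ k ih =>
    intro x l hl
    set N : ℝ := 4 * (S.m : ℝ) ^ j * (S.kappa / S.d) ^ (l.length + 1) with hN
    have hN0 : 0 ≤ N := hbase _
    rw [exc, S.sum_through_succ o (by simp; omega)]
    have hq1 : 1 - S.ratio mu ≠ 0 := by
      intro h; linarith
    have hcq : c * (1 + 2 * S.sigma) + 1 = 1 / (1 - S.ratio mu) := by
      have : S.kappa / mu * (1 + 2 * S.sigma) = S.ratio mu := rfl
      rw [hc, excC, div_mul_eq_mul_div, this, div_add_one hq1, add_sub_cancel]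
    have hterm : ∀ z ∈ (S.Nd x).filter (fun z => z ∉ x :: l),
        ∑ Q ∈ S.through o j (z :: x :: l), (s ^ shared E Q / s ^ shared E (x :: l) - 1) ≤
          N * ((if s(x, z) ∈ E then s * (1 / (1 - S.ratio mu)) else 0) + c * S.Xi P z) := by
      intro z _
      have h1 := ih z (x :: l) (by simp; omega)
      rw [List.length_cons, ← hN] at h1
      have hpw : ∀ Q : List V, s ^ shared E Q / s ^ shared E (x :: l) =
          s ^ (if s(x, z) ∈ E then 1 else 0 : ℕ) * (s ^ shared E Q / s ^ shared E (z :: x :: l)) := by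
        intro Q
        rw [shared, pow_add]
        field_simp
      have hXz : 0 ≤ c * S.Xi P z :=
        mul_nonneg hc0 ((Nat.cast_nonneg _).trans (S.inc_le_Xi P z))
      split_ifs with hz
      · simp only [hpw, if_pos hz, pow_one]
        simp only [lastShared, if_pos hz, Nat.cast_one] at h1
        have hzP : z ∈ P := mem_of_mem_edgesOf (List.mem_toFinset.1 hz) z (Sym2.mem_mk_right x z)
        have hXi := S.Xi_le hP hzP
        have hcard : ((S.through o j (z :: x :: l)).card : ℝ) ≤ N := by
          rw [hN]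
          exact S.card_through_le o (by simp) (by omega)
        calc ∑ Q ∈ S.through o j (z :: x :: l),
              (s * (s ^ shared E Q / s ^ shared E (z :: x :: l)) - 1)
            = s * S.exc o j E s (z :: x :: l) + (s - 1) * (S.through o j (z :: x :: l)).card := by
              rw [exc, Finset.mul_sum, Finset.card_eq_sum_ones]
              push_cast
              rw [Finset.mul_sum, ← Finset.sum_add_distrib]
              exact Finset.sum_congr rfl fun Q _ => by ring
          _ ≤ s * (N * c * (1 + 2 * S.sigma)) + s * N := by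
              refine add_le_add (mul_le_mul_of_nonneg_left (h1.trans ?_) hs0.le)
                (mul_le_mul (by linarith) hcard (Nat.cast_nonneg _) hs0.le)
              exact mul_le_mul_of_nonneg_left (by linarith) (mul_nonneg hN0 hc0)
          _ = N * (s * (c * (1 + 2 * S.sigma) + 1)) := by ring
          _ ≤ _ := by
              rw [hcq]
              exact mul_le_mul_of_nonneg_left (by linarith) hN0
      · simp only [hpw, if_neg hz, pow_zero, one_mul]
        simp only [lastShared, if_neg hz, Nat.cast_zero, sub_zero] at h1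
        exact h1.trans (le_of_eq (by ring))
    refine (Finset.sum_le_sum hterm).trans ?_
    rw [← Finset.mul_sum, Finset.sum_add_distrib, ← Finset.mul_sum, ← Finset.sum_filter,
      Finset.filter_filter, Finset.sum_const, nsmul_eq_mul]
    have hcnt : (((S.Nd x).filter fun z => z ∉ x :: l ∧ s(x, z) ∈ E).card : ℝ) ≤
        inc P x - lastShared E (x :: l) := by
      rw [le_sub_iff_add_le]
      have h := S.card_shared_step_le P x l
      rw [← hE] at h
      simp only [and_comm (a := _ ∉ _)]
      exact_mod_cast h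
    have hXiS : ∑ z ∈ (S.Nd x).filter (fun z => z ∉ x :: l), S.Xi P z ≤
        (S.d : ℝ) / S.lam * (S.Xi P x - inc P x) :=
      (Finset.sum_le_sum_of_subset_of_nonneg (Finset.filter_subset _ _)
        fun z _ _ => (Nat.cast_nonneg _).trans (S.inc_le_Xi P z)).trans (S.sum_Xi_le P x)
    have hkl : S.kappa / S.lam ≤ 1 := (div_le_one S.lam_pos).2 S.kappa_le_lam
    have hd := S.d_pos'
    have hlam := S.lam_pos
    have hX := S.inc_le_Xi P x
    calc _ ≤ N * ((inc P x - lastShared E (x :: l)) * (s * (1 / (1 - S.ratio mu))) +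
            c * ((S.d : ℝ) / S.lam * (S.Xi P x - inc P x))) := by
          refine mul_le_mul_of_nonneg_left (add_le_add
            (mul_le_mul_of_nonneg_right hcnt ?_) (mul_le_mul_of_nonneg_left hXiS hc0)) hN0
          exact mul_nonneg hs0.le (one_div_nonneg.2 (by linarith))
      _ = 4 * (S.m : ℝ) ^ j * (S.kappa / S.d) ^ l.length * c *
            ((inc P x - lastShared E (x :: l)) + S.kappa / S.lam * (S.Xi P x - inc P x)) := by
          rw [hN, hs, hc, excC, pow_succ]
          field_simp
      _ ≤ _ := by
          refine mul_le_mul_of_nonneg_left ?_ (mul_nonneg (hbase _) hc0)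
          nlinarith

theorem sum_pow_shared_le (hmu : 0 < mu) (hmud : mu ≤ S.d) (hq : S.ratio mu < 1) {j : ℕ}
    {P : List V} (hP : P ∈ S.fam o j) :
    ∑ Q ∈ S.fam o j, ((S.d : ℝ) / mu) ^ shared (edgesOf P).toFinset Q ≤
      (1 + 8 * S.excC mu * (1 + S.sigma)) * (S.m : ℝ) ^ j := by
  have hoP : o ∈ P := (S.suffix_fam o hP).subset (by simp)
  have h := S.exc_le o hmu hmud hq (j := j) (S.tame_fam o hP) (j * S.L) o [] (by simp)
  have ht : S.through o j [o] = S.fam o j :=
    Finset.filter_true_of_mem fun Q hQ => S.suffix_fam o hQ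
  simp only [exc, ht, shared, pow_zero, div_one, Finset.sum_sub_distrib, Finset.sum_const,
    nsmul_eq_mul, mul_one, S.card_fam, lastShared, List.length_nil, Nat.cast_zero, sub_zero,
    Nat.cast_pow] at h
  have h2 := mul_le_mul_of_nonneg_left (S.Xi_le (S.tame_fam o hP) hoP)
    (mul_nonneg (by positivity : (0 : ℝ) ≤ 4 * (S.m : ℝ) ^ j) (S.excC_nonneg hmu hq))
  linarith

end Setup

end

end Vale.Agent.P165.General
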