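import Mathlib

/-!
# A large family of paths that do not come back

Lists are read from the head, which is the current end point of a path.  A kernel `H` which
decreases by a factor `lam` under one step is weighted along the past with weights `β ^ i`, and
`hval` is this weighted value at the current end point.  Most walks of length `L` keep `hval`
small, and iterating gives a family of `m ^ j` self-avoiding paths of length `j * L`, spread out
like the ball of a `d / κ` regular tree.
-/

namespace Vale.Agent.P165.General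

open scoped Classical
noncomputable section

variable {V : Type*}

/-- The data used to build the family of paths. -/
structure Setup (G : SimpleGraph V) where
  d : ℕ
  lam : ℝ
  delta : ℝ
  H : V → V → ℝ
  Nd : V → Finset V
  beta : ℝ
  tau : ℝ
  eta : ℝ
  kappa : ℝ
  L : ℕ
  d_pos : 0 < d
  delta_nonneg : 0 ≤ delta
  adj : ∀ x, ∀ z ∈ Nd x, G.Adj x z
  card_Nd : ∀ x, (Nd x).card = d
  nonneg : ∀ a b, 0 ≤ H a b
  symm : ∀ a b, H a b = H b a
  one_le_self : ∀ a, 1 ≤ H a a
  le_delta : ∀ a b, H a b ≤ (if a = b then 1 else 0) + delta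
  step : ∀ x v, ∑ z ∈ Nd x, H z v ≤ (d : ℝ) / lam * (H x v - if x = v then 1 else 0)
  one_lt_beta : 1 < beta
  beta_lt_lam : beta < lam
  tau_pos : 0 < tau
  tau_lt_one : tau < 1
  L_pos : 0 < L
  eta_eq : 8 * L * eta = tau
  delta_le : delta / (1 - beta / lam) ≤ eta / 4
  pow_le : (beta / lam) ^ L ≤ 1 / 4
  one_le_kappa : 1 ≤ kappa
  kappa_le_lam : kappa ≤ lam
  four_le_pow : 4 ≤ kappa ^ L

namespace Setup

variable {G : SimpleGraph V} (S : Setup G)

theorem lam_pos : 0 < S.lam := by linarith [S.one_lt_beta, S.beta_lt_lam]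

theorem d_pos' : (0 : ℝ) < S.d := Nat.cast_pos.2 S.d_pos

theorem eta_pos : 0 < S.eta := by
  have h : (0 : ℝ) < 8 * S.L := by
    have := Nat.cast_pos (α := ℝ).2 S.L_pos
    linarith
  exact pos_of_mul_pos_right (S.eta_eq ▸ S.tau_pos) h.le

theorem eta_le_tau : S.eta ≤ S.tau := by
  rw [← S.eta_eq]
  have := S.eta_pos
  have : (1 : ℝ) ≤ S.L := by exact_mod_cast S.L_pos
  nlinarith

theorem theta_nonneg : 0 ≤ S.beta / S.lam :=
  div_nonneg (by linarith [S.one_lt_beta]) S.lam_pos.le

theorem theta_lt_one : S.beta / S.lam < 1 := (div_lt_one S.lam_pos).2 S.beta_lt_lam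

theorem beta_nonneg : 0 ≤ S.beta := by linarith [S.one_lt_beta]

theorem sum_step_le (x v : V) : ∑ z ∈ S.Nd x, S.H z v ≤ (S.d : ℝ) / S.lam * S.H x v := by
  refine (S.step x v).trans (mul_le_mul_of_nonneg_left ?_ (div_nonneg (Nat.cast_nonneg _)
    S.lam_pos.le))
  split_ifs <;> linarith

/-- The weighted kernel of a list. -/
def pot : List V → V → ℝ
  | [], _ => 0
  | y :: l, z => S.H z y + S.beta * pot l z

/-- The weighted kernel of the past at the current end point. -/
def hval : List V → ℝ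
  | [] => 0
  | y :: l => S.pot l y

theorem pot_nonneg : ∀ (l : List V) (z : V), 0 ≤ S.pot l z
  | [], _ => le_rfl
  | _ :: l, z => add_nonneg (S.nonneg _ _) (mul_nonneg S.beta_nonneg (pot_nonneg l z))

theorem hval_nonneg : ∀ l : List V, 0 ≤ S.hval l
  | [] => le_rfl
  | _ :: l => S.pot_nonneg l _

theorem sum_map_le_pot : ∀ (l : List V) (z : V), (l.map (S.H z)).sum ≤ S.pot l z
  | [], _ => le_rfl
  | y :: l, z => by
    rw [List.map_cons, List.sum_cons, pot]
    have h1 := sum_map_le_pot l z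
    have h2 := le_mul_of_one_le_left (S.pot_nonneg l z) S.one_lt_beta.le
    linarith

theorem le_pot_of_mem {l : List V} {v : V} (hv : v ∈ l) (z : V) : S.H z v ≤ S.pot l z := by
  refine le_trans ?_ (S.sum_map_le_pot l z)
  refine List.single_le_sum ?_ _ (List.mem_map_of_mem hv)
  intro a ha
  obtain ⟨b, -, rfl⟩ := List.mem_map.1 ha
  exact S.nonneg _ _

theorem sum_pot_le (x : V) : ∀ l : List V,
    ∑ z ∈ S.Nd x, S.pot l z ≤ (S.d : ℝ) / S.lam * S.pot l x
  | [] => by simp [pot]
  | y :: l => by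
    simp only [pot, Finset.sum_add_distrib, ← Finset.mul_sum]
    have h1 := S.sum_step_le x y
    have h2 := mul_le_mul_of_nonneg_left (sum_pot_le x l) S.beta_nonneg
    nlinarith

/-- One step extensions. -/
def next : List V → Finset (List V)
  | [] => ∅
  | x :: l => (S.Nd x).image fun z => z :: x :: l

/-- Extensions by `k` steps. -/
def ext : ℕ → List V → Finset (List V)
  | 0, Q => {Q}
  | k + 1, Q => (ext k Q).biUnion S.next

theorem mem_next {Q R : List V} (h : R ∈ S.next Q) :
    ∃ x l, ∃ z ∈ S.Nd x, Q = x :: l ∧ R = z :: x :: l := by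
  match Q, h with
  | x :: l, h =>
    obtain ⟨z, hz, rfl⟩ := Finset.mem_image.1 h
    exact ⟨x, l, z, hz, rfl, rfl⟩

theorem drop_one_of_mem_next {Q R : List V} (h : R ∈ S.next Q) : R.drop 1 = Q := by
  obtain ⟨x, l, z, -, rfl, rfl⟩ := S.mem_next h
  rfl

theorem mem_ext_succ {k : ℕ} {Q R : List V} (h : R ∈ S.ext (k + 1) Q) :
    ∃ R', R' ∈ S.ext k Q ∧ R ∈ S.next R' := by
  simpa [ext] using h

theorem length_ext : ∀ {k : ℕ} {Q R : List V}, R ∈ S.ext k Q →
    R.length = k + Q.length ∧ R.drop k = Q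
  | 0, _, _, h => by simp [ext] at h; simp [h]
  | k + 1, Q, R, h => by
    obtain ⟨R', h1, h2⟩ := S.mem_ext_succ h
    obtain ⟨h3, h4⟩ := length_ext h1
    obtain ⟨x, l, z, -, rfl, rfl⟩ := S.mem_next h2
    refine ⟨by simp only [List.length_cons] at h3 ⊢; omega, ?_⟩
    rw [List.drop_succ_cons, h4]

theorem ext_ne_nil {k : ℕ} {Q R : List V} (hQ : Q ≠ []) (h : R ∈ S.ext k Q) : R ≠ [] := by
  intro hR
  rw [hR] at h
  have := (S.length_ext h).1
  have := List.length_pos_iff.2 hQ
  simp at *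
  omega

theorem disjoint_next (s : Set (List V)) : s.PairwiseDisjoint S.next := by
  intro a _ b _ hab
  simp only [Function.onFun, Finset.disjoint_left]
  intro R ha hb
  exact hab ((S.drop_one_of_mem_next ha).symm.trans (S.drop_one_of_mem_next hb))

theorem sum_ext_succ (k : ℕ) (Q : List V) (f : List V → ℝ) :
    ∑ R ∈ S.ext (k + 1) Q, f R = ∑ R ∈ S.ext k Q, ∑ R' ∈ S.next R, f R' := by
  rw [ext, Finset.sum_biUnion (S.disjoint_next _)]

theorem card_next {Q : List V} (hQ : Q ≠ []) : (S.next Q).card = S.d := by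
  match Q, hQ with
  | x :: l, _ =>
    rw [next, Finset.card_image_of_injective _ fun a b h => (List.cons.inj h).1, S.card_Nd]

theorem card_ext {Q : List V} (hQ : Q ≠ []) : ∀ k, (S.ext k Q).card = S.d ^ k
  | 0 => by simp [ext]
  | k + 1 => by
    rw [ext, Finset.card_biUnion (S.disjoint_next _),
      Finset.sum_congr rfl fun R hR => S.card_next (S.ext_ne_nil hQ hR),
      Finset.sum_const, smul_eq_mul, card_ext hQ k, pow_succ]

theorem ext_ext : ∀ {a b : ℕ} {p Q R : List V}, R ∈ S.ext a Q → Q ∈ S.ext b p →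
    R ∈ S.ext (b + a) p
  | 0, b, p, Q, R, h1, h2 => by simp [ext] at h1; subst h1; exact h2
  | a + 1, b, p, Q, R, h1, h2 => by
    obtain ⟨R', h3, h4⟩ := S.mem_ext_succ h1
    rw [← Nat.add_assoc, ext, Finset.mem_biUnion]
    exact ⟨R', ext_ext h3 h2, h4⟩

theorem mem_ext_drop : ∀ {k : ℕ} {p R : List V}, R ∈ S.ext k p → ∀ i ≤ k,
    R ∈ S.ext i (R.drop i)
  | _, _, _, _, 0, _ => by simp [ext]
  | k + 1, p, R, h, i + 1, hi => by
    obtain ⟨R', h1, h2⟩ := S.mem_ext_succ h
    obtain ⟨x, l, z, hz, rfl, rfl⟩ := S.mem_next h2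
    rw [ext, Finset.mem_biUnion, List.drop_succ_cons]
    exact ⟨_, mem_ext_drop h1 i (by omega), h2⟩

theorem exists_cons_suffix : ∀ {k : ℕ} {x : V} {l R : List V}, R ∈ S.ext (k + 1) (x :: l) →
    ∃ z ∈ S.Nd x, z :: x :: l <:+ R
  | 0, x, l, R, h => by
    obtain ⟨R', h1, h2⟩ := S.mem_ext_succ h
    simp [ext] at h1
    subst h1
    obtain ⟨x', l', z, hz, he, rfl⟩ := S.mem_next h2
    obtain ⟨rfl, rfl⟩ := List.cons.inj he
    exact ⟨z, hz, List.suffix_refl _⟩
  | k + 1, x, l, R, h => by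
    obtain ⟨R', h1, h2⟩ := S.mem_ext_succ h
    obtain ⟨z, hz, hs⟩ := exists_cons_suffix h1
    obtain ⟨x', l', z', -, he, rfl⟩ := S.mem_next h2
    exact ⟨z, hz, (he ▸ hs).trans (List.suffix_cons _ _)⟩

theorem isChain_ext (o : V) : ∀ {k : ℕ} {R : List V}, R ∈ S.ext k [o] → List.IsChain G.Adj R
  | 0, R, h => by simp [ext] at h; subst h; simp
  | k + 1, R, h => by
    obtain ⟨R', h1, h2⟩ := S.mem_ext_succ h
    obtain ⟨x, l, z, hz, rfl, rfl⟩ := S.mem_next h2
    exact List.IsChain.cons_cons (S.adj x z hz).symm (isChain_ext o h1)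

theorem sum_next_hval_le {Q : List V} (hQ : Q ≠ []) :
    ∑ R ∈ S.next Q, S.hval R ≤ S.d * (S.delta + S.beta / S.lam * S.hval Q) := by
  match Q, hQ with
  | x :: l, _ =>
    rw [next, Finset.sum_image fun a _ b _ h => (List.cons.inj h).1]
    simp only [hval, pot, Finset.sum_add_distrib, ← Finset.mul_sum]
    have h1 : ∑ z ∈ S.Nd x, S.H z x ≤ S.d * S.delta := by
      calc ∑ z ∈ S.Nd x, S.H z x ≤ ∑ _z ∈ S.Nd x, S.delta :=
            Finset.sum_le_sum fun z hz => by
              simpa [(S.adj x z hz).ne'] using S.le_delta z x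
        _ = _ := by rw [Finset.sum_const, S.card_Nd, nsmul_eq_mul]
    have h2 := mul_le_mul_of_nonneg_left (S.sum_pot_le x l) S.beta_nonneg
    calc _ ≤ (S.d : ℝ) * S.delta + S.beta * ((S.d : ℝ) / S.lam * S.pot l x) := add_le_add h1 h2
      _ = _ := by ring

theorem sum_ext_hval_le {Q : List V} (hQ : Q ≠ []) : ∀ k, ∑ R ∈ S.ext k Q, S.hval R ≤
    (S.d : ℝ) ^ k * ((S.beta / S.lam) ^ k * S.hval Q + S.delta / (1 - S.beta / S.lam))
  | 0 => by
    simp [ext]
    exact div_nonneg S.delta_nonneg (by linarith [S.theta_lt_one])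
  | k + 1 => by
    have ih := sum_ext_hval_le hQ k
    set θ := S.beta / S.lam
    have hθ : (1 - θ) ≠ 0 := by
      have := S.theta_lt_one
      intro h; linarith
    calc ∑ R ∈ S.ext (k + 1) Q, S.hval R
        ≤ ∑ R ∈ S.ext k Q, (S.d : ℝ) * (S.delta + θ * S.hval R) := by
          rw [sum_ext_succ]
          exact Finset.sum_le_sum fun R hR => S.sum_next_hval_le (S.ext_ne_nil hQ hR)
      _ = (S.d : ℝ) ^ (k + 1) * S.delta + S.d * (θ * ∑ R ∈ S.ext k Q, S.hval R) := by
          rw [← Finset.mul_sum, Finset.sum_add_distrib, ← Finset.mul_sum, Finset.sum_const,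
            S.card_ext hQ, nsmul_eq_mul]
          push_cast
          ring
      _ ≤ (S.d : ℝ) ^ (k + 1) * S.delta +
            S.d * (θ * ((S.d : ℝ) ^ k * (θ ^ k * S.hval Q + S.delta / (1 - θ)))) := by
          have := S.theta_nonneg
          gcongr
      _ = _ := by field_simp; ring

/-- The sum of the new values along an extension. -/
def inner (k : ℕ) (R : List V) : ℝ := ∑ i ∈ Finset.range k, S.hval (R.drop i)

theorem sum_ext_inner_le {Q : List V} (hQ : Q ≠ []) : ∀ k, ∑ R ∈ S.ext k Q, S.inner k R ≤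
    (S.d : ℝ) ^ k * (k * (S.hval Q + S.delta / (1 - S.beta / S.lam)))
  | 0 => by simp [inner]
  | k + 1 => by
    have ih := sum_ext_inner_le hQ k
    set θ := S.beta / S.lam
    have h1 : ∑ R ∈ S.ext (k + 1) Q, S.inner (k + 1) R =
        (∑ R ∈ S.ext (k + 1) Q, S.hval R) + S.d * ∑ R ∈ S.ext k Q, S.inner k R := by
      rw [S.sum_ext_succ k Q (S.inner (k + 1)), S.sum_ext_succ k Q S.hval, Finset.mul_sum,
        ← Finset.sum_add_distrib]
      refine Finset.sum_congr rfl fun R hR => ?_
      rw [show (S.d : ℝ) * S.inner k R = ∑ _R' ∈ S.next R, S.inner k R by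
        rw [Finset.sum_const, S.card_next (S.ext_ne_nil hQ hR), nsmul_eq_mul],
        ← Finset.sum_add_distrib]
      refine Finset.sum_congr rfl fun R' hR' => ?_
      obtain ⟨x, l, z, -, rfl, rfl⟩ := S.mem_next hR'
      simp [inner, Finset.sum_range_succ', add_comm]
    have h2 := S.sum_ext_hval_le hQ (k + 1)
    have h3 : θ ^ (k + 1) * S.hval Q ≤ S.hval Q :=
      mul_le_of_le_one_left (S.hval_nonneg Q) (pow_le_one₀ S.theta_nonneg S.theta_lt_one.le)
    rw [h1]
    calc _ ≤ (S.d : ℝ) ^ (k + 1) * (S.hval Q + S.delta / (1 - θ)) +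
          S.d * ((S.d : ℝ) ^ k * (k * (S.hval Q + S.delta / (1 - θ)))) := by
          refine add_le_add (h2.trans ?_) (mul_le_mul_of_nonneg_left ih (Nat.cast_nonneg _))
          gcongr
      _ = _ := by push_cast; ring

/-- The number of selected extensions. -/
def m : ℕ := ⌈(S.d : ℝ) ^ S.L / 4⌉₊

/-- The good extensions. -/
def good (Q : List V) : Finset (List V) :=
  (S.ext S.L Q).filter fun R => S.hval R ≤ S.eta ∧ S.inner S.L R ≤ S.tau

theorem m_le_card_good {Q : List V} (hQ : Q ≠ []) (hQ' : S.hval Q ≤ S.eta) :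
    S.m ≤ (S.good Q).card := by
  refine Nat.ceil_le.2 ?_
  set E := S.ext S.L Q
  set A := E.filter fun R => S.eta < S.hval R
  set B := E.filter fun R => S.tau < S.inner S.L R
  have hE : (E.card : ℝ) = (S.d : ℝ) ^ S.L := by rw [S.card_ext hQ]; push_cast; rfl
  have hsub : E ⊆ S.good Q ∪ A ∪ B := by
    intro R hR
    simp only [good, A, B, Finset.mem_union, Finset.mem_filter]
    by_cases h1 : S.hval R ≤ S.eta <;> by_cases h2 : S.inner S.L R ≤ S.tau
    · exact Or.inl (Or.inl ⟨hR, h1, h2⟩)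
    · exact Or.inr ⟨hR, not_le.1 h2⟩
    · exact Or.inl (Or.inr ⟨hR, not_le.1 h1⟩)
    · exact Or.inr ⟨hR, not_le.1 h2⟩
  have hcard : (E.card : ℝ) ≤ (S.good Q).card + A.card + B.card := by
    exact_mod_cast (Finset.card_le_card hsub).trans ((Finset.card_union_le _ _).trans
      (Nat.add_le_add_right (Finset.card_union_le _ _) _))
  have hd : (0 : ℝ) ≤ (S.d : ℝ) ^ S.L := by positivity
  have hA : (A.card : ℝ) * S.eta ≤ (S.d : ℝ) ^ S.L * (S.eta / 2) := by
    calc (A.card : ℝ) * S.eta = ∑ _R ∈ A, S.eta := by rw [Finset.sum_const, nsmul_eq_mul]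
      _ ≤ ∑ R ∈ A, S.hval R := Finset.sum_le_sum fun R hR => (Finset.mem_filter.1 hR).2.le
      _ ≤ ∑ R ∈ E, S.hval R := Finset.sum_le_sum_of_subset_of_nonneg
          (Finset.filter_subset _ _) fun R _ _ => S.hval_nonneg R
      _ ≤ _ := by
          refine (S.sum_ext_hval_le hQ S.L).trans (mul_le_mul_of_nonneg_left ?_ hd)
          have := S.delta_le
          have : (S.beta / S.lam) ^ S.L * S.hval Q ≤ 1 / 4 * S.eta :=
            mul_le_mul S.pow_le hQ' (S.hval_nonneg Q) (by norm_num)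
          linarith
  have hB : (B.card : ℝ) * S.tau ≤ (S.d : ℝ) ^ S.L * (S.tau / 4) := by
    calc (B.card : ℝ) * S.tau = ∑ _R ∈ B, S.tau := by rw [Finset.sum_const, nsmul_eq_mul]
      _ ≤ ∑ R ∈ B, S.inner S.L R := Finset.sum_le_sum fun R hR => (Finset.mem_filter.1 hR).2.le
      _ ≤ ∑ R ∈ E, S.inner S.L R := Finset.sum_le_sum_of_subset_of_nonneg
          (Finset.filter_subset _ _) fun R _ _ =>
            Finset.sum_nonneg fun i _ => S.hval_nonneg _
      _ ≤ _ := by
          refine (S.sum_ext_inner_le hQ S.L).trans (mul_le_mul_of_nonneg_left ?_ hd)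
          have h1 := S.delta_le
          have h2 : (S.L : ℝ) * (S.hval Q + S.delta / (1 - S.beta / S.lam)) ≤
              (S.L : ℝ) * (2 * S.eta) :=
            mul_le_mul_of_nonneg_left (by linarith [S.eta_pos]) (Nat.cast_nonneg _)
          linarith [S.eta_eq]
  have hA' : (A.card : ℝ) ≤ (S.d : ℝ) ^ S.L / 2 := by
    rw [← mul_le_mul_iff_left₀ S.eta_pos]
    linarith
  have hB' : (B.card : ℝ) ≤ (S.d : ℝ) ^ S.L / 4 := by
    rw [← mul_le_mul_iff_left₀ S.tau_pos]
    linarith
  linarith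

/-- The selected extensions. -/
def sel (Q : List V) : Finset (List V) :=
  if h : S.m ≤ (S.good Q).card then (Finset.exists_subset_card_eq h).choose else ∅

theorem sel_subset (Q : List V) : S.sel Q ⊆ S.good Q := by
  unfold sel
  split_ifs with h
  · exact (Finset.exists_subset_card_eq h).choose_spec.1
  · exact Finset.empty_subset _

theorem card_sel {Q : List V} (hQ : Q ≠ []) (hQ' : S.hval Q ≤ S.eta) : (S.sel Q).card = S.m := by
  unfold sel
  rw [dif_pos (S.m_le_card_good hQ hQ')]
  exact (Finset.exists_subset_card_eq (S.m_le_card_good hQ hQ')).choose_spec.2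

variable (o : V)

/-- The family of paths from `o`. -/
def fam : ℕ → Finset (List V)
  | 0 => {[o]}
  | j + 1 => (fam j).biUnion S.sel

theorem fam_spec : ∀ {j : ℕ} {Q : List V}, Q ∈ S.fam o j →
    Q ∈ S.ext (j * S.L) [o] ∧ S.hval Q ≤ S.eta ∧ ∀ i, S.hval (Q.drop i) ≤ S.tau
  | 0, Q, h => by
    simp [fam] at h
    subst h
    refine ⟨by simp [ext], S.eta_pos.le, fun i => ?_⟩
    rcases i with _ | i <;> simp [hval, pot, S.tau_pos.le]
  | j + 1, Q, h => by
    obtain ⟨Q', h1, h2⟩ := Finset.mem_biUnion.1 h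
    obtain ⟨h3, -, h5⟩ := fam_spec h1
    obtain ⟨h6, h7, h8⟩ := Finset.mem_filter.1 (S.sel_subset Q' h2)
    refine ⟨?_, h7, fun i => ?_⟩
    · rw [Nat.succ_mul]
      exact S.ext_ext h6 h3
    · rcases lt_or_ge i S.L with hi | hi
      · refine le_trans ?_ h8
        exact Finset.single_le_sum (f := fun i => S.hval (Q.drop i))
          (fun i _ => S.hval_nonneg _) (Finset.mem_range.2 hi)
      · obtain ⟨i, rfl⟩ := Nat.exists_eq_add_of_le hi
        rw [← List.drop_drop, (S.length_ext h6).2]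
        exact h5 i

theorem length_fam {j : ℕ} {Q : List V} (h : Q ∈ S.fam o j) : Q.length = j * S.L + 1 := by
  rw [(S.length_ext (S.fam_spec o h).1).1, List.length_singleton]

theorem suffix_fam {j : ℕ} {Q : List V} (h : Q ∈ S.fam o j) : [o] <:+ Q :=
  (S.length_ext (S.fam_spec o h).1).2 ▸ List.drop_suffix _ _

theorem fam_ne_nil {j : ℕ} {Q : List V} (h : Q ∈ S.fam o j) : Q ≠ [] := by
  intro h0
  have := S.length_fam o h
  simp [h0] at this

theorem drop_sel {j : ℕ} {Q R : List V} (hR : R ∈ S.sel Q) : R.drop S.L = Q :=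
  (S.length_ext (Finset.mem_filter.1 (S.sel_subset Q hR)).1).2

theorem disjoint_sel (j : ℕ) : (S.fam o j : Set (List V)).PairwiseDisjoint S.sel := by
  intro a _ b _ hab
  simp only [Function.onFun, Finset.disjoint_left]
  intro R ha hb
  exact hab ((S.drop_sel (j := j) ha).symm.trans (S.drop_sel (j := j) hb))

theorem card_fam : ∀ j, (S.fam o j).card = S.m ^ j
  | 0 => by simp [fam]
  | j + 1 => by
    rw [fam, Finset.card_biUnion (S.disjoint_sel o j),
      Finset.sum_congr rfl fun Q hQ => S.card_sel (S.fam_ne_nil o hQ) (S.fam_spec o hQ).2.1,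
      Finset.sum_const, smul_eq_mul, card_fam j, pow_succ]

/-- The paths through a given initial segment. -/
def through (j : ℕ) (l : List V) : Finset (List V) := (S.fam o j).filter fun Q => l <:+ Q

theorem card_through_le {t : ℕ} {l : List V} (hl : l.length = t + 1) : ∀ {j : ℕ}, t ≤ j * S.L →
    ((S.through o j l).card : ℝ) ≤ 4 * (S.m : ℝ) ^ j * (S.kappa / S.d) ^ t
  | 0, ht => by
    have : t = 0 := by simpa using ht
    subst this
    have h : ((S.through o 0 l).card : ℝ) ≤ 1 := by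
      exact_mod_cast (Finset.card_filter_le _ _).trans (by simp [fam])
    simp only [pow_zero, mul_one]
    linarith
  | j + 1, ht => by
    rcases le_or_gt t (j * S.L) with htj | htj
    · have hsub : S.through o (j + 1) l ⊆ (S.through o j l).biUnion S.sel := by
        intro R hR
        obtain ⟨hR1, hR2⟩ := Finset.mem_filter.1 hR
        obtain ⟨Q, hQ1, hQ2⟩ := Finset.mem_biUnion.1 hR1
        refine Finset.mem_biUnion.2 ⟨Q, Finset.mem_filter.2 ⟨hQ1, ?_⟩, hQ2⟩
        refine List.suffix_of_suffix_length_le hR2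
          (S.drop_sel (j := j) hQ2 ▸ List.drop_suffix _ _) ?_
        rw [hl, S.length_fam o hQ1]
        omega
      have h1 : (S.through o (j + 1) l).card ≤ (S.through o j l).card * S.m :=
        (Finset.card_le_card hsub).trans (Finset.card_biUnion_le_card_mul _ _ _ fun Q hQ => by
          obtain ⟨hQ1, -⟩ := Finset.mem_filter.1 hQ
          exact (S.card_sel (S.fam_ne_nil o hQ1) (S.fam_spec o hQ1).2.1).le)
      calc ((S.through o (j + 1) l).card : ℝ) ≤ (S.through o j l).card * (S.m : ℝ) := by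
            exact_mod_cast h1
        _ ≤ 4 * (S.m : ℝ) ^ j * (S.kappa / S.d) ^ t * S.m :=
            mul_le_mul_of_nonneg_right (card_through_le hl htj) (Nat.cast_nonneg _)
        _ = _ := by ring
    · have hsub : S.through o (j + 1) l ⊆ S.ext ((j + 1) * S.L - t) l := by
        intro R hR
        obtain ⟨hR1, hR2⟩ := Finset.mem_filter.1 hR
        have h1 := S.mem_ext_drop (S.fam_spec o hR1).1 ((j + 1) * S.L - t) (Nat.sub_le _ _)
        have h2 : R.drop ((j + 1) * S.L - t) = l := by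
          conv_rhs => rw [List.suffix_iff_eq_drop.1 hR2]
          rw [S.length_fam o hR1, hl]
          congr 1
          omega
        rwa [h2] at h1
      have hl0 : l ≠ [] := by
        intro h; simp [h] at hl
      have h1 : ((S.through o (j + 1) l).card : ℝ) ≤ (S.d : ℝ) ^ ((j + 1) * S.L - t) := by
        exact_mod_cast (Finset.card_le_card hsub).trans (S.card_ext hl0 _).le
      have hm : (S.d : ℝ) ^ S.L / 4 ≤ (S.m : ℝ) := Nat.le_ceil _
      have hk0 : (0 : ℝ) < S.kappa := lt_of_lt_of_le one_pos S.one_le_kappa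
      have hd := S.d_pos'
      have h4 : (4 : ℝ) ^ j ≤ S.kappa ^ t :=
        calc (4 : ℝ) ^ j ≤ (S.kappa ^ S.L) ^ j := pow_le_pow_left₀ (by norm_num) S.four_le_pow j
          _ = S.kappa ^ (j * S.L) := by rw [← pow_mul, mul_comm]
          _ ≤ S.kappa ^ t := pow_le_pow_right₀ S.one_le_kappa htj.le
      refine h1.trans ?_
      rw [pow_sub₀ _ hd.ne' ht, div_pow, ← div_eq_mul_inv, mul_div_assoc']
      refine div_le_div_of_nonneg_right ?_ (pow_nonneg hd.le _)
      calc (S.d : ℝ) ^ ((j + 1) * S.L) = ((S.d : ℝ) ^ S.L / 4) ^ (j + 1) * 4 ^ (j + 1) := by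
            rw [← mul_pow, div_mul_cancel₀ _ (by norm_num : (4 : ℝ) ≠ 0), ← pow_mul, mul_comm]
        _ ≤ (S.m : ℝ) ^ (j + 1) * (4 * S.kappa ^ t) := by
            refine mul_le_mul (pow_le_pow_left₀ (by positivity) hm _) ?_ (by positivity)
              (by positivity)
            rw [pow_succ']
            exact mul_le_mul_of_nonneg_left h4 (by norm_num)
        _ = _ := by ring

end Setup

end

end Vale.Agent.P165.General
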