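import Vale.Agent.P165.Main

/-!
# No uniqueness below the inverse adjacency norm, on every locally finite graph

If the infinite cluster is unique then `θ x = P_q(x ↔ ∞)` is square summable as soon as
`q * c < 1`, where `c` bounds the adjacency operator.  Since `θ ≤ q A θ` this forces `θ = 0`.
-/

namespace Vale.Agent.P165.General

open MeasureTheory ProbabilityTheory
open scoped ENNReal

variable {V : Type*}

open Classical in
/-- The adjacency operator of `G` has norm at most `c` on finitely supported functions. -/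
def AdjacencyNormLE (G : SimpleGraph V) (c : ℝ) : Prop :=
  ∀ (s : Finset V) (f : V → ℝ),
    ∑ x ∈ s, ∑ y ∈ s, (if G.Adj x y then f x * f y else 0) ≤ c * ∑ x ∈ s, f x ^ 2

theorem AdjacencyNormLE.mono {G : SimpleGraph V} {c c' : ℝ} (h : AdjacencyNormLE G c)
    (hc : c ≤ c') : AdjacencyNormLE G c' := fun s f =>
  (h s f).trans (mul_le_mul_of_nonneg_right hc (Finset.sum_nonneg fun x _ => sq_nonneg _))

variable {G : SimpleGraph V} [G.LocallyFinite]

open Classical in
/-- The weighted form of `sq_cnt_le`. -/
theorem sq_cnt_weight_le {c : ℝ} (hc : 0 < c) (h : AdjacencyNormLE G c) (F : Finset V)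
    (w : V → ℝ) (k : ℕ) (T : Finset V) :
    ∑ x ∈ T, (∑ y ∈ F, (cnt G k x y : ℝ) * w y) ^ 2 ≤ (c ^ k) ^ 2 * ∑ y ∈ F, w y ^ 2 := by
  induction k generalizing T with
  | zero =>
    have hF : ∀ x, (∑ y ∈ F, (cnt G 0 x y : ℝ) * w y) = if x ∈ F then w x else 0 := by
      intro x; simp [cnt, Finset.sum_ite_eq]
    simp only [hF, ite_pow, ne_eq, OfNat.ofNat_ne_zero, not_false_eq_true, zero_pow,
      pow_zero, one_pow, one_mul]
    rw [← Finset.sum_filter]
    exact Finset.sum_le_sum_of_subset_of_nonneg (fun x hx => (Finset.mem_filter.1 hx).2)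
      fun x _ _ => sq_nonneg _
  | succ k ih =>
    set S := nbhdFinset (G := G) T with hS
    set f : V → ℝ := fun z => if z ∈ S then ∑ y ∈ F, (cnt G k z y : ℝ) * w y else 0 with hf
    have hstep : ∀ x ∈ T, (∑ y ∈ F, (cnt G (k + 1) x y : ℝ) * w y) =
        ∑ z ∈ G.neighborFinset x, f z := by
      intro x hx
      simp only [cnt, Nat.cast_sum, Finset.sum_mul]
      rw [Finset.sum_comm]
      refine Finset.sum_congr rfl fun z hz => ?_
      have : z ∈ S := by
        simp only [hS, nbhdFinset, Finset.mem_biUnion]
        exact ⟨x, hx, hz⟩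
      simp [hf, this]
    rw [Finset.sum_congr rfl fun x hx => by rw [hstep x hx]]
    refine (sq_adjOp_le hc h S T f (fun x hx => by simp [hf, hx])).trans ?_
    rw [Finset.sum_congr rfl fun x (hx : x ∈ S) => by
      rw [show f x = ∑ y ∈ F, (cnt G k x y : ℝ) * w y by simp [hf, hx]]]
    calc c ^ 2 * ∑ x ∈ S, (∑ y ∈ F, (cnt G k x y : ℝ) * w y) ^ 2
        ≤ c ^ 2 * ((c ^ k) ^ 2 * ∑ y ∈ F, w y ^ 2) := by gcongr; exact ih S
      _ = (c ^ (k + 1)) ^ 2 * ∑ y ∈ F, w y ^ 2 := by ring

theorem quad_cnt_le {c : ℝ} (hc : 0 < c) (h : AdjacencyNormLE G c) (F : Finset V) (w : V → ℝ)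
    (k : ℕ) :
    ∑ x ∈ F, ∑ y ∈ F, w x * w y * (cnt G k x y : ℝ) ≤ c ^ k * ∑ x ∈ F, w x ^ 2 := by
  have h2 := sq_cnt_weight_le hc h F w k F
  have hck : 0 < c ^ k := pow_pos hc k
  set g : V → ℝ := fun x => ∑ y ∈ F, (cnt G k x y : ℝ) * w y
  have e : ∀ x, ∑ y ∈ F, w x * w y * (cnt G k x y : ℝ) = w x * g x := fun x => by
    simp only [g, Finset.mul_sum]
    exact Finset.sum_congr rfl fun y _ => by ring
  simp only [e]
  have h1 : ∑ x ∈ F, 2 * (c ^ k * (w x * g x)) ≤
      ∑ x ∈ F, ((c ^ k) ^ 2 * w x ^ 2 + g x ^ 2) :=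
    Finset.sum_le_sum fun x _ => by nlinarith [sq_nonneg (c ^ k * w x - g x)]
  rw [Finset.sum_add_distrib, ← Finset.mul_sum, ← Finset.mul_sum, ← Finset.mul_sum] at h1
  change ∑ x ∈ F, g x ^ 2 ≤ _ at h2
  nlinarith

variable [Countable V] {q : unitInterval}

/-- The probability of an infinite cluster at `x`. -/
noncomputable def theta (G : SimpleGraph V) (q : unitInterval) (x : V) : ℝ :=
  (bondMeasure V q).real {ω | (cluster G ω x).Infinite}

theorem theta_le_neighbours (x : V) :
    theta G q x ≤ (q : ℝ) * ∑ b ∈ G.neighborFinset x, theta G q b := by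
  classical
  set H := window G ({x}ᶜ : Set V) with hH
  have hsub : {ω | (cluster G ω x).Infinite} ⊆ ⋃ b ∈ G.neighborFinset x,
      ({ω : Sym2 V → Bool | ∀ e ∈ ({s(x, b)} : Finset (Sym2 V)), ω e = true} ∩
        {ω | (cluster H ω b).Infinite}) := by
    intro ω hω
    by_contra hcon
    simp only [Set.mem_iUnion, Set.mem_inter_iff, Set.mem_ofPred_eq, not_exists, not_and,
      Finset.mem_singleton, forall_eq] at hcon
    refine hω ?_
    have hcov : cluster G ω x ⊆ insert x (⋃ b ∈ (G.neighborFinset x).filter
        (fun b => ω s(x, b) = true), cluster H ω b) := by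
      intro z hz
      obtain ⟨w, hw⟩ := SimpleGraph.Reachable.exists_isPath hz
      match w, hw with
      | .nil, _ => exact Set.mem_insert _ _
      | @SimpleGraph.Walk.cons _ _ _ b _ hxb w', hw =>
        refine Set.mem_insert_of_mem _ (Set.mem_iUnion₂.2 ⟨b, ?_, ?_⟩)
        · simp only [Finset.mem_filter, SimpleGraph.mem_neighborFinset]
          exact hxb
        · rw [SimpleGraph.Walk.cons_isPath_iff] at hw
          have key : ∀ {u v : V} (p : (openGraph G ω).Walk u v), x ∉ p.support →
              (openGraph H ω).Reachable u v := by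
            intro u v p
            induction p with
            | nil => intro _; exact SimpleGraph.Reachable.refl _
            | @cons u w v huw p ih =>
              intro hp
              rw [SimpleGraph.Walk.support_cons, List.mem_cons, not_or] at hp
              refine SimpleGraph.Reachable.trans (SimpleGraph.Adj.reachable ?_) (ih hp.2)
              exact ⟨⟨huw.1, Ne.symm hp.1, fun h => hp.2 (h ▸ p.start_mem_support)⟩, huw.2⟩
          exact key w' hw.2
    refine Set.Finite.subset ?_ hcov
    refine (Set.Finite.biUnion (Finset.finite_toSet _) fun b hb => ?_).insert x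
    rw [Finset.mem_coe, Finset.mem_filter] at hb
    exact Set.not_infinite.1 (hcon b hb.1 hb.2)
  have hterm : ∀ b, bondMeasure V q
      ({ω : Sym2 V → Bool | ∀ e ∈ ({s(x, b)} : Finset (Sym2 V)), ω e = true} ∩
        {ω | (cluster H ω b).Infinite}) ≤
      ENNReal.ofReal (q : ℝ) * bondMeasure V q {ω | (cluster G ω b).Infinite} := by
    intro b
    have hx : s(x, b) ∉ H.edgeSet := fun he => he.2.1 rfl
    set A := {ω : Sym2 V → Bool | ∀ e ∈ ({s(x, b)} : Finset (Sym2 V)), ω e = true}
    set B := {ω : Sym2 V → Bool | (cluster H ω b).Infinite}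
    have hA : MeasurableSet A := measurableSet_open _
    have hB : MeasurableSet B := measurableSet_infinite_cluster H b
    have hind : (A ∩ B).indicator (1 : (Sym2 V → Bool) → ℝ≥0∞) =
        fun ω => A.indicator 1 ω * B.indicator 1 ω := by
      funext ω
      by_cases h1 : ω ∈ A <;> by_cases h2 : ω ∈ B <;> simp [Set.indicator, h1, h2]
    calc bondMeasure V q (A ∩ B) = ∫⁻ ω, A.indicator 1 ω * B.indicator 1 ω ∂bondMeasure V q := by
          rw [← lintegral_indicator_one (hA.inter hB), hind]
      _ = bondMeasure V q A * bondMeasure V q B := by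
          rw [lintegral_mul_of_dep {s(x, b)} _ _ (measurable_one.indicator hA)
            (measurable_one.indicator hB), lintegral_indicator_one hA, lintegral_indicator_one hB]
          · intro ω ω' h
            simp [A, Set.indicator, h s(x, b) rfl]
          · intro ω ω' h
            have : cluster H ω b = cluster H ω' b :=
              cluster_congr (fun e he => h e fun he' => hx (Set.mem_singleton_iff.1 he' ▸ he)) b
            simp [B, Set.indicator, this]
      _ ≤ _ := by
          refine mul_le_mul' (le_of_eq ?_) (measure_mono fun ω hh =>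
            Set.Infinite.mono (cluster_mono (window_le _ _) ω b) hh)
          simp only [A]
          rw [bondMeasure_open, Finset.card_singleton, pow_one]
  have h1 : bondMeasure V q {ω | (cluster G ω x).Infinite} ≤
      ∑ b ∈ G.neighborFinset x,
        ENNReal.ofReal (q : ℝ) * bondMeasure V q {ω | (cluster G ω b).Infinite} :=
    (measure_mono hsub).trans ((measure_biUnion_finset_le _ _).trans
      (Finset.sum_le_sum fun b _ => hterm b))
  have htop : ∀ b ∈ G.neighborFinset x,
      ENNReal.ofReal (q : ℝ) * bondMeasure V q {ω | (cluster G ω b).Infinite} ≠ ⊤ := fun b _ =>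
    ENNReal.mul_ne_top ENNReal.ofReal_ne_top (measure_ne_top _ _)
  have h2 := ENNReal.toReal_mono (ENNReal.sum_ne_top.2 htop) h1
  rw [ENNReal.toReal_sum htop] at h2
  simp only [ENNReal.toReal_mul, ENNReal.toReal_ofReal q.2.1] at h2
  simpa [theta, Measure.real, Finset.mul_sum] using h2

/-- Uniqueness is impossible for `q * c < 1`. -/
theorem not_unique {c : ℝ} (hc : 0 < c) (h : AdjacencyNormLE G c) (hq : (q : ℝ) * c < 1) :
    bondMeasure V q (hasUniqueInfiniteCluster G) ≠ 1 := by
  classical
  intro huniq
  set μq := bondMeasure V q with hμq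
  have hq0 : (0 : ℝ) ≤ q := q.2.1
  have hqc : (0 : ℝ) ≤ q * c := mul_nonneg hq0 hc.le
  have hU : μq (hasUniqueInfiniteCluster G)ᶜ = 0 :=
    (prob_compl_eq_zero_iff measurableSet_unique).2 huniq
  set K : ℝ := (1 - q * c)⁻¹ with hK
  have htau : ∀ x y, μq.real ({ω | (cluster G ω x).Infinite} ∩ {ω | (cluster G ω y).Infinite})
      ≤ ∑' k : ℕ, (q : ℝ) ^ k * cnt G k x y := by
    intro x y
    have hsum : Summable fun k : ℕ => (q : ℝ) ^ k * cnt G k x y := by
      refine Summable.of_nonneg_of_le (fun k => by positivity) (fun k => ?_)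
        (summable_geometric_of_lt_one hqc hq)
      rw [mul_pow]
      gcongr
      exact cnt_le_pow hc h k x y
    refine ENNReal.toReal_le_of_le_ofReal (tsum_nonneg fun k => by positivity) ?_
    rw [ENNReal.ofReal_tsum_of_nonneg (fun k => by positivity) hsum]
    refine le_trans ?_ ((measure_mem_cluster_le (G := G) q x y).trans (le_of_eq (tsum_congr fun k => ?_)))
    · calc μq ({ω | (cluster G ω x).Infinite} ∩ {ω | (cluster G ω y).Infinite})
          ≤ μq ({ω | y ∈ cluster G ω x} ∪ (hasUniqueInfiniteCluster G)ᶜ) := by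
            refine measure_mono fun ω hω => ?_
            by_cases hu : ω ∈ hasUniqueInfiniteCluster G
            · obtain ⟨z, -, hz⟩ := hu
              exact Or.inl (SimpleGraph.Reachable.trans
                (SimpleGraph.Reachable.symm (hz x hω.1)) (hz y hω.2))
            · exact Or.inr hu
        _ ≤ μq {ω | y ∈ cluster G ω x} + μq (hasUniqueInfiniteCluster G)ᶜ := measure_union_le _ _
        _ = _ := by rw [hU, add_zero]
    · rw [ENNReal.ofReal_mul (by positivity), ENNReal.ofReal_pow hq0, ENNReal.ofReal_natCast]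
  -- square summability
  set θ := theta G q
  have hθ0 : ∀ x, 0 ≤ θ x := fun x => measureReal_nonneg
  have hsq : ∀ F : Finset V, ∑ x ∈ F, θ x ^ 2 ≤ K := by
    intro F
    set a := ∑ x ∈ F, θ x ^ 2 with ha
    let I : V → (Sym2 V → Bool) → ℝ := fun x => {ω | (cluster G ω x).Infinite}.indicator 1
    have hIint : ∀ x, Integrable (I x) μq := fun x =>
      (integrable_const (1 : ℝ)).indicator (measurableSet_infinite_cluster G x)
    have hII : ∀ x y, (fun ω => I x ω * I y ω) =
        ({ω | (cluster G ω x).Infinite} ∩ {ω | (cluster G ω y).Infinite}).indicator 1 := by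
      intro x y
      funext ω
      by_cases h1 : (cluster G ω x).Infinite <;> by_cases h2 : (cluster G ω y).Infinite <;>
        simp [I, Set.indicator, h1, h2]
    have hIIint : ∀ x y, Integrable (fun ω => I x ω * I y ω) μq := fun x y => by
      rw [hII]
      exact (integrable_const (1 : ℝ)).indicator
        ((measurableSet_infinite_cluster G x).inter (measurableSet_infinite_cluster G y))
    set Y : (Sym2 V → Bool) → ℝ := fun ω => ∑ x ∈ F, θ x * I x ω with hY
    have hYint : Integrable Y μq := integrable_finsetSum _ fun x _ => (hIint x).const_mul _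
    have hY2eq : (fun ω => Y ω ^ 2) =
        fun ω => ∑ x ∈ F, ∑ y ∈ F, θ x * θ y * (I x ω * I y ω) := by
      funext ω
      simp only [hY, sq, Finset.sum_mul_sum]
      exact Finset.sum_congr rfl fun x _ => Finset.sum_congr rfl fun y _ => by ring
    have hY2int : Integrable (fun ω => Y ω ^ 2) μq := by
      rw [hY2eq]
      exact integrable_finsetSum _ fun x _ => integrable_finsetSum _ fun y _ =>
        (hIIint x y).const_mul _
    have hEY : ∫ ω, Y ω ∂μq = a := by
      rw [hY, integral_finsetSum _ fun x _ => (hIint x).const_mul _]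
      refine Finset.sum_congr rfl fun x _ => ?_
      rw [integral_const_mul, integral_indicator_one (measurableSet_infinite_cluster G x)]
      simp only [θ, theta, sq]; rfl
    have hlow : a * a ≤ ∫ ω, Y ω ^ 2 ∂μq := by
      have h1 : ∫ ω, (2 * a * Y ω - a * a) ∂μq ≤ ∫ ω, Y ω ^ 2 ∂μq :=
        integral_mono ((hYint.const_mul _).sub (integrable_const _)) hY2int
          fun ω => by dsimp only; nlinarith [sq_nonneg (Y ω - a)]
      rw [integral_sub (hYint.const_mul _) (integrable_const _), integral_const_mul, hEY,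
        integral_const, probReal_univ, one_smul] at h1
      linarith
    have hup : ∫ ω, Y ω ^ 2 ∂μq ≤ K * a := by
      rw [hY2eq, integral_finsetSum _ fun x _ => integrable_finsetSum _ fun y _ =>
        (hIIint x y).const_mul _]
      calc ∑ x ∈ F, ∫ ω, ∑ y ∈ F, θ x * θ y * (I x ω * I y ω) ∂μq
          ≤ ∑ x ∈ F, ∑ y ∈ F, θ x * θ y * ∑' k : ℕ, (q : ℝ) ^ k * cnt G k x y := by
            refine Finset.sum_le_sum fun x _ => ?_
            rw [integral_finsetSum _ fun y _ => (hIIint x y).const_mul _]
            refine Finset.sum_le_sum fun y _ => ?_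
            rw [integral_const_mul, hII, integral_indicator_one
              ((measurableSet_infinite_cluster G x).inter (measurableSet_infinite_cluster G y))]
            exact mul_le_mul_of_nonneg_left (htau x y) (mul_nonneg (hθ0 x) (hθ0 y))
        _ = ∑' k : ℕ, (q : ℝ) ^ k * ∑ x ∈ F, ∑ y ∈ F, θ x * θ y * (cnt G k x y : ℝ) := by
            have hs : ∀ x y, Summable fun k : ℕ => θ x * θ y * ((q : ℝ) ^ k * cnt G k x y) :=
              fun x y => Summable.mul_left _ (Summable.of_nonneg_of_le (fun k => by positivity)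
                (fun k => by rw [mul_pow]; gcongr; exact cnt_le_pow hc h k x y)
                (summable_geometric_of_lt_one hqc hq))
            simp only [← tsum_mul_left, Finset.mul_sum]
            rw [Summable.tsum_finsetSum fun x _ => summable_sum fun y _ => ((hs x y).congr
              fun k => by ring)]
            refine Finset.sum_congr rfl fun x _ => ?_
            rw [Summable.tsum_finsetSum fun y _ => (hs x y).congr fun k => by ring]
            exact Finset.sum_congr rfl fun y _ => tsum_congr fun k => by ring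
        _ ≤ ∑' k : ℕ, ((q : ℝ) * c) ^ k * a := by
            have hle : ∀ k : ℕ, (q : ℝ) ^ k * ∑ x ∈ F, ∑ y ∈ F, θ x * θ y * (cnt G k x y : ℝ) ≤
                ((q : ℝ) * c) ^ k * a := fun k => by
              rw [mul_pow, mul_assoc]
              exact mul_le_mul_of_nonneg_left (quad_cnt_le hc h F θ k) (by positivity)
            refine Summable.tsum_le_tsum hle ?_ ((summable_geometric_of_lt_one hqc hq).mul_right _)
            exact Summable.of_nonneg_of_le (fun k => mul_nonneg (by positivity)
              (Finset.sum_nonneg fun x _ => Finset.sum_nonneg fun y _ =>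
                mul_nonneg (mul_nonneg (hθ0 x) (hθ0 y)) (Nat.cast_nonneg _))) hle
              ((summable_geometric_of_lt_one hqc hq).mul_right _)
        _ = K * a := by rw [tsum_mul_right, tsum_geometric_of_lt_one hqc hq]
    have ha0 : 0 ≤ a := Finset.sum_nonneg fun x _ => sq_nonneg _
    rcases ha0.lt_or_eq with hpos | hzero
    · exact le_of_mul_le_mul_right (hlow.trans hup) hpos
    · rw [← hzero, hK]; exact inv_nonneg.2 (by linarith)
  -- the bound iterates
  have hiter : ∀ (k : ℕ) (T : Finset V), ∑ x ∈ T, θ x ^ 2 ≤ ((q * c) ^ 2) ^ k * K := by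
    intro k
    induction k with
    | zero => intro T; simpa using hsq T
    | succ k ih =>
      intro T
      set S := nbhdFinset (G := G) T with hS
      let f : V → ℝ := fun z => if z ∈ S then θ z else 0
      have hf : ∀ x ∈ T, ∑ z ∈ G.neighborFinset x, f z = ∑ z ∈ G.neighborFinset x, θ z := by
        intro x hx
        refine Finset.sum_congr rfl fun z hz => if_pos ?_
        simp only [hS, nbhdFinset, Finset.mem_biUnion]
        exact ⟨x, hx, hz⟩
      calc ∑ x ∈ T, θ x ^ 2 ≤ ∑ x ∈ T, ((q : ℝ) * ∑ z ∈ G.neighborFinset x, f z) ^ 2 := by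
            refine Finset.sum_le_sum fun x hx => pow_le_pow_left₀ (hθ0 x) ?_ 2
            rw [hf x hx]
            exact theta_le_neighbours x
        _ = (q : ℝ) ^ 2 * ∑ x ∈ T, (∑ z ∈ G.neighborFinset x, f z) ^ 2 := by
            rw [Finset.mul_sum]; exact Finset.sum_congr rfl fun x _ => by ring
        _ ≤ (q : ℝ) ^ 2 * (c ^ 2 * ∑ x ∈ S, f x ^ 2) := by
            gcongr
            exact sq_adjOp_le hc h S T f fun x hx => if_neg hx
        _ ≤ (q : ℝ) ^ 2 * (c ^ 2 * (((q * c) ^ 2) ^ k * K)) := by
            gcongr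
            refine le_trans (le_of_eq (Finset.sum_congr rfl fun x hx => ?_)) (ih S)
            simp [f, hx]
        _ = _ := by ring
  have hzero : ∀ x, θ x = 0 := by
    intro x
    have hb : (q * c : ℝ) ^ 2 < 1 := pow_lt_one₀ hqc hq two_ne_zero
    have hlim := (tendsto_pow_atTop_nhds_zero_of_lt_one (sq_nonneg _) hb).mul_const K
    rw [zero_mul] at hlim
    have h2 : θ x ^ 2 ≤ 0 := ge_of_tendsto' hlim fun k => by simpa using hiter k {x}
    exact pow_eq_zero_iff two_ne_zero |>.1 (le_antisymm h2 (sq_nonneg _))
  have hnull : μq (⋃ x, {ω | (cluster G ω x).Infinite}) = 0 :=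
    measure_iUnion_null fun x => (measureReal_eq_zero_iff).1 (hzero x)
  have hle : μq (hasUniqueInfiniteCluster G) ≤ μq (⋃ x, {ω | (cluster G ω x).Infinite}) :=
    measure_mono fun ω hω => Set.mem_iUnion.2 ⟨hω.choose, hω.choose_spec.1⟩
  rw [huniq, hnull] at hle
  simp at hle

end Vale.Agent.P165.General
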