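import Vale.Agent.P165.General.Unique

/-!
# The walk kernel for graphs of degree comparable to `d`
-/

namespace Vale.Agent.P165.General

variable {V : Type*} (G : SimpleGraph V) [G.LocallyFinite]

/-- The kernel `∑ t ^ k cnt_k`. -/
noncomputable def kern (t : ℝ) (a b : V) : ℝ := ∑' k : ℕ, t ^ k * cnt G k a b

variable {G}

theorem cnt_succ' (k : ℕ) (a b : V) :
    cnt G (k + 1) a b = ∑ z ∈ G.neighborFinset b, cnt G k a z := by
  classical
  induction k generalizing a with
  | zero => simp [cnt, Finset.sum_ite_eq, SimpleGraph.adj_comm]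
  | succ k ih =>
    show ∑ w ∈ G.neighborFinset a, cnt G (k + 1) w b = _
    simp only [ih]
    rw [Finset.sum_comm]
    rfl

theorem cnt_comm (k : ℕ) (a b : V) : cnt G k a b = cnt G k b a := by
  induction k generalizing a b with
  | zero =>
    rcases eq_or_ne a b with h | h
    · subst h; rfl
    · simp [cnt, h, Ne.symm h]
  | succ k ih =>
    rw [cnt_succ']
    exact Finset.sum_congr rfl fun z _ => ih a z

theorem kern_comm (t : ℝ) (a b : V) : kern G t a b = kern G t b a :=
  tsum_congr fun k => by rw [cnt_comm]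

theorem cnt_succ_le_pow {M : ℝ} (hM0 : 0 ≤ M) (hM : ∀ x, (G.degree x : ℝ) ≤ M) (k : ℕ) (a b : V) :
    (cnt G (k + 1) a b : ℝ) ≤ M ^ k := by
  classical
  induction k generalizing a with
  | zero =>
    simp only [cnt, pow_zero, Nat.cast_le_one]
    rw [Finset.sum_ite_eq']
    split_ifs <;> simp
  | succ k ih =>
    rw [cnt, Nat.cast_sum]
    calc ∑ z ∈ G.neighborFinset a, (cnt G (k + 1) z b : ℝ) ≤ ∑ _z ∈ G.neighborFinset a, M ^ k :=
          Finset.sum_le_sum fun z _ => ih z
      _ ≤ M ^ (k + 1) := by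
          rw [Finset.sum_const, SimpleGraph.card_neighborFinset_eq_degree, nsmul_eq_mul, pow_succ']
          gcongr
          exact hM a

section Bounds

variable {c t : ℝ} (hc : 0 < c) (h : AdjacencyNormLE G c) (ht : 0 ≤ t) (htc : t * c < 1)

include hc h ht htc

theorem summable_kern (a b : V) : Summable fun k : ℕ => t ^ k * cnt G k a b := by
  refine Summable.of_nonneg_of_le (fun k => by positivity) (fun k => ?_)
    (summable_geometric_of_lt_one (mul_nonneg ht hc.le) htc)
  rw [mul_pow]
  gcongr
  exact cnt_le_pow hc h k a b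

omit hc h htc in
theorem kern_nonneg (a b : V) : 0 ≤ kern G t a b := tsum_nonneg fun k => by positivity

open Classical in
theorem kern_eq (a b : V) :
    kern G t a b = (if a = b then 1 else 0) + t * ∑ z ∈ G.neighborFinset a, kern G t z b := by
  rw [kern, (summable_kern hc h ht htc a b).tsum_eq_zero_add]
  congr 1
  · simp [cnt]
  · simp only [kern]
    rw [← Summable.tsum_finsetSum fun z _ => summable_kern hc h ht htc z b, ← tsum_mul_left]
    refine tsum_congr fun k => ?_
    simp only [cnt, Nat.cast_sum, Finset.mul_sum, pow_succ']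
    exact Finset.sum_congr rfl fun z _ => by ring

theorem one_le_kern_self (a : V) : 1 ≤ kern G t a a := by
  rw [kern_eq hc h ht htc, if_pos rfl]
  have : 0 ≤ t * ∑ z ∈ G.neighborFinset a, kern G t z a :=
    mul_nonneg ht (Finset.sum_nonneg fun z _ => kern_nonneg ht z a)
  linarith

end Bounds

open Classical in
/-- For large `d` the kernel is the identity up to `δ`. -/
theorem exists_degree_kern_le {lam r C δ : ℝ} (hlam : 0 < lam) (hr : 0 < r) (hlr : lam * r < 1)
    (hC : 1 ≤ C) (hδ : 0 < δ) :
    ∃ D : ℕ, 2 ≤ D ∧ ∀ {V : Type*} (G : SimpleGraph V) [G.LocallyFinite] (d : ℕ), D ≤ d →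
      (∀ x, (G.degree x : ℝ) ≤ C * d) → AdjacencyNormLE G (r * d) →
      ∀ a b, kern G (lam / d) a b ≤ (if a = b then 1 else 0) + δ := by
  have hθ0 : 0 ≤ lam * r := by positivity
  obtain ⟨L, hL⟩ := exists_pow_lt_of_lt_one (show 0 < δ / 2 * (1 - lam * r) by
    have : 0 < 1 - lam * r := by linarith
    positivity) hlr
  set A : ℝ := ∑ k ∈ Finset.range L, lam ^ (k + 1) * C ^ k with hA
  refine ⟨⌈2 * A / δ⌉₊ + 2, by omega, ?_⟩
  intro V G _ d hd hdeg h a b
  have hd0 : (0 : ℝ) < d := by
    have : 0 < d := by omega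
    exact_mod_cast this
  have ht : (0 : ℝ) ≤ lam / d := by positivity
  have htc : lam / d * (r * d) < 1 := by
    rwa [show lam / d * (r * d) = lam * r by field_simp]
  set g : ℕ → ℝ := fun k => (lam / d) ^ k * cnt G k a b with hg
  have hsum : Summable g := summable_kern (by positivity) h ht htc a b
  rw [kern, hsum.tsum_eq_zero_add, show g 0 = if a = b then 1 else 0 by simp [hg, cnt]]
  gcongr
  rw [← Summable.sum_add_tsum_nat_add L ((summable_nat_add_iff 1).2 hsum),
    show δ = δ / 2 + δ / 2 by ring]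
  refine add_le_add ?_ ?_
  · refine (Finset.sum_le_sum (g := fun k => lam ^ (k + 1) * C ^ k / d) fun k _ => ?_).trans ?_
    · calc g (k + 1) ≤ (lam / d) ^ (k + 1) * (C * d) ^ k := by
            simp only [hg]; gcongr; exact cnt_succ_le_pow (by positivity) hdeg k a b
        _ = _ := by rw [div_pow, mul_pow, pow_succ (d : ℝ)]; field_simp
    · rw [← Finset.sum_div, ← hA, div_le_iff₀ hd0]
      have h1 : (⌈2 * A / δ⌉₊ : ℝ) + 2 ≤ d := by exact_mod_cast hd
      have h2 : 2 * A / δ ≤ (d : ℝ) := le_trans (Nat.le_ceil _) (by linarith)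
      rw [div_le_iff₀ hδ] at h2
      linarith
  · have hle : ∀ k, g (k + L + 1) ≤ (lam * r) ^ L * (lam * r) ^ k := fun k => by
      calc g (k + L + 1) ≤ (lam / d) ^ (k + L + 1) * (r * d) ^ (k + L + 1) := by
            simp only [hg]; gcongr; exact cnt_le_pow (by positivity) h _ a b
        _ = (lam * r) ^ (k + L + 1) := by rw [← mul_pow]; congr 1; field_simp
        _ ≤ (lam * r) ^ (L + k) := pow_le_pow_of_le_one hθ0 hlr.le (by omega)
        _ = _ := pow_add _ _ _
    refine (Summable.tsum_le_tsum hle ?_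
      ((summable_geometric_of_lt_one hθ0 hlr).mul_left _)).trans ?_
    · exact (summable_nat_add_iff L).2 ((summable_nat_add_iff 1).2 hsum)
    · rw [tsum_mul_left, tsum_geometric_of_lt_one hθ0 hlr, ← div_eq_mul_inv,
        div_le_iff₀ (by linarith)]
      linarith

end Vale.Agent.P165.General
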